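import Vale.Agent.P340.Hub.Tm

/-!
Confluence of beta reduction, by complete developments.
-/

namespace Vale.Agent.P340.Unit

open Vale.Agent.P340.Hub

universe u

variable {S : Type u}

/-- Parallel reduction. -/
inductive PStep : Tm S → Tm S → Prop
  | var (i) : PStep (.var i) (.var i)
  | srt (s) : PStep (.srt s) (.srt s)
  | app {a a' b b'} : PStep a a' → PStep b b' → PStep (.app a b) (.app a' b')
  | lam {a a' b b'} : PStep a a' → PStep b b' → PStep (.lam a b) (.lam a' b')
  | pi {a a' b b'} : PStep a a' → PStep b b' → PStep (.pi a b) (.pi a' b')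
  | beta {A b b' a a'} : PStep b b' → PStep a a' → PStep (.app (.lam A b) a) (b'.sub (inst a'))

theorem PStep.rfl' : ∀ t : Tm S, PStep t t
  | .var i => .var i
  | .srt s => .srt s
  | .app a b => .app (rfl' a) (rfl' b)
  | .lam a b => .lam (rfl' a) (rfl' b)
  | .pi a b => .pi (rfl' a) (rfl' b)

theorem PStep.of_step {a b : Tm S} (h : Step a b) : PStep a b := by
  induction h with
  | beta A b a => exact .beta (rfl' _) (rfl' _)
  | app₁ b _ ih => exact .app ih (rfl' _)
  | app₂ a _ ih => exact .app (rfl' _) ih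
  | lam₁ b _ ih => exact .lam ih (rfl' _)
  | lam₂ a _ ih => exact .lam (rfl' _) ih
  | pi₁ b _ ih => exact .pi ih (rfl' _)
  | pi₂ a _ ih => exact .pi (rfl' _) ih

theorem PStep.steps {a b : Tm S} (h : PStep a b) : Steps a b := by
  induction h with
  | var => exact .refl
  | srt => exact .refl
  | app _ _ ih1 ih2 => exact (Steps.app₁ _ ih1).trans (Steps.app₂ _ ih2)
  | lam _ _ ih1 ih2 => exact (Steps.lam₁ _ ih1).trans (Steps.lam₂ _ ih2)
  | pi _ _ ih1 ih2 => exact (Steps.pi₁ _ ih1).trans (Steps.pi₂ _ ih2)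
  | beta _ _ ih1 ih2 =>
    exact ((Steps.app₁ _ (Steps.lam₂ _ ih1)).trans (Steps.app₂ _ ih2)).tail (.beta _ _ _)

theorem PStep.ren {a b : Tm S} (h : PStep a b) : ∀ f, PStep (a.ren f) (b.ren f) := by
  induction h with
  | var => intro f; exact .var _
  | srt => intro f; exact .srt _
  | app _ _ ih1 ih2 => intro f; exact .app (ih1 f) (ih2 f)
  | lam _ _ ih1 ih2 => intro f; exact .lam (ih1 f) (ih2 _)
  | pi _ _ ih1 ih2 => intro f; exact .pi (ih1 f) (ih2 _)
  | beta _ _ ih1 ih2 => intro f; rw [inst_ren]; exact .beta (ih1 _) (ih2 f)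

theorem PStep.sub {a b : Tm S} (h : PStep a b) : ∀ {σ τ : ℕ → Tm S},
    (∀ i, PStep (σ i) (τ i)) → PStep (a.sub σ) (b.sub τ) := by
  have up : ∀ {σ τ : ℕ → Tm S}, (∀ i, PStep (σ i) (τ i)) → ∀ i, PStep (ups σ i) (ups τ i) := by
    intro σ τ h i
    cases i with
    | zero => exact .var 0
    | succ i => exact (h i).ren _
  induction h with
  | var i => intro σ τ h; exact h i
  | srt => intro σ τ _; exact .srt _
  | app _ _ ih1 ih2 => intro σ τ h; exact .app (ih1 h) (ih2 h)
  | lam _ _ ih1 ih2 => intro σ τ h; exact .lam (ih1 h) (ih2 (up h))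
  | pi _ _ ih1 ih2 => intro σ τ h; exact .pi (ih1 h) (ih2 (up h))
  | beta _ _ ih1 ih2 => intro σ τ h; rw [inst_sub]; exact .beta (ih1 (up h)) (ih2 h)

/-- The complete development. -/
def dev : Tm S → Tm S
  | .var i => .var i
  | .srt s => .srt s
  | .app (.lam _ b) a => (dev b).sub (inst (dev a))
  | .app a b => .app (dev a) (dev b)
  | .lam a b => .lam (dev a) (dev b)
  | .pi a b => .pi (dev a) (dev b)

theorem PStep.inst {b b' a a' : Tm S} (hb : PStep b b') (ha : PStep a a') :
    PStep (b.sub (Hub.inst a)) (b'.sub (Hub.inst a')) :=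
  hb.sub fun i => by
    cases i with
    | zero => exact ha
    | succ i => exact .var i

theorem PStep.triangle {a b : Tm S} (h : PStep a b) : PStep b (dev a) := by
  induction h with
  | var => exact .var _
  | srt => exact .srt _
  | @app a a' b b' ha hb iha ihb =>
    cases a with
    | lam A c =>
      cases ha with
      | lam hA hc =>
        cases iha with
        | lam _ ic => exact .beta ic ihb
    | _ => exact .app iha ihb
  | lam _ _ ih1 ih2 => exact .lam ih1 ih2
  | pi _ _ ih1 ih2 => exact .pi ih1 ih2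
  | beta _ _ ih1 ih2 => exact ih1.inst ih2

theorem church_rosser {a b c : Tm S} (hb : Steps a b) (hc : Steps a c) :
    ∃ d, Steps b d ∧ Steps c d := by
  have conv : ∀ {x y : Tm S}, Relation.ReflTransGen PStep x y → Steps x y := fun h => by
    induction h with
    | refl => exact .refl
    | tail _ h ih => exact ih.trans h.steps
  obtain ⟨d, h1, h2⟩ := Relation.church_rosser (r := PStep)
    (fun x y z hy hz => ⟨dev x, .single hy.triangle, .single hz.triangle⟩)
    (hb.lift id fun _ _ s => PStep.of_step s) (hc.lift id fun _ _ s => PStep.of_step s)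
  exact ⟨d, conv h1, conv h2⟩

theorem Conv.join {a b : Tm S} (h : Conv a b) : ∃ d, Steps a d ∧ Steps b d := by
  induction h with
  | rel x y h => exact ⟨y, .single h, .refl⟩
  | refl x => exact ⟨x, .refl, .refl⟩
  | symm x y _ ih => obtain ⟨d, h1, h2⟩ := ih; exact ⟨d, h2, h1⟩
  | trans x y z _ _ ih1 ih2 =>
    obtain ⟨d, h1, h2⟩ := ih1
    obtain ⟨e, h3, h4⟩ := ih2
    obtain ⟨g, h5, h6⟩ := church_rosser h2 h3
    exact ⟨g, h1.trans h5, h4.trans h6⟩

theorem Conv.to_srt {a : Tm S} {s : S} (h : Conv a (.srt s)) : Steps a (.srt s) := by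
  obtain ⟨d, h1, h2⟩ := Conv.join h
  obtain rfl : Tm.srt s = d := by
    rcases h2.cases_head with e | ⟨c, hc, -⟩
    · exact e
    · cases hc
  exact h1

theorem Conv.srt_inj {a b : S} (h : Conv (.srt a : Tm S) (.srt b)) : a = b := by
  rcases (Conv.to_srt h).cases_head with e | ⟨c, hc, -⟩
  · exact Tm.srt.inj e
  · cases hc

end Vale.Agent.P340.Unit
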