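import Vale.Agent.P340.Unit.Tr

/-!
Target contexts: one declaration for each source declaration, above the fixed declarations.
-/

namespace Vale.Agent.P340.Unit

open Vale.Agent.P340.Hub

universe u

variable {S : Type u}

/-- A sort `o` with the rules needed by the translation. -/
structure UnitAt (Ax : S → S → Prop) (Ru : S → S → S → Prop) (o : S) : Prop where
  sorted : ∃ k, Ax o k
  inn : ∀ s, Ru o s s
  closed : ∃ T : S → Prop, T o ∧ ∀ s t, T t → ∃ t', T t' ∧ Ru s t t'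

variable {Ax : S → S → Prop} {Ru : S → S → S → Prop} {o : S}

theorem Typed.weakSort {Γ : List (Tm S)} {A C : Tm S} {s t : S}
    (hA : Typed Ax Ru Γ A (.srt t)) (hC : Typed Ax Ru Γ C (.srt s)) :
    Typed Ax Ru (C :: Γ) (A.ren Nat.succ) (.srt t) := Hub.Typed.weak hA hC

/-- The type read off a pure value. -/
def el (m : ℕ) (A : Tm S) : Tm S := (tr m id (q0V m) A).2

/-- The type of computations. -/
def ctyp (m : ℕ) (e : Tm S) : Tm S := .pi (oV m) (e.ren Nat.succ)

/-- The type of the constant family used by codes. -/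
def g0Ty (m : ℕ) : Tm S :=
  .pi (dV m (q0V m)) (.pi (oV (m + 1)) (.pi (qV (m + 2)) (qV (m + 3))))

/-- The target declarations of the source declarations, with `r` families below. -/
def c1 (r : ℕ) : List (Tm S) → List (Tm S)
  | [] => []
  | A :: Γ => ctyp (Γ.length + r) (el (Γ.length + r) A) :: c1 r Γ

/-- The fixed declarations. -/
def baseCtx (o : S) : List (Tm S) :=
  [.app (.var 1) (.lam (.var 3) (.var 3)),
   .pi (.app (.var 0) (.lam (.var 2) (.var 2)))
     (.pi (.pi (.var 3) (.var 4)) (.pi (.var 4) (.var 5))),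
   .pi (.pi (.var 1) (.var 2)) (.srt o),
   .var 0,
   .srt o]

/-- The target context. -/
def ctx (o : S) (R Γ : List (Tm S)) : List (Tm S) := c1 R.length Γ ++ (R ++ baseCtx o)

/-- The number of variables above the fixed declarations. -/
def off (R Γ : List (Tm S)) : ℕ := Γ.length + R.length

theorem c1_length (r : ℕ) (Γ : List (Tm S)) : (c1 r Γ).length = Γ.length := by
  induction Γ with
  | nil => rfl
  | cons A Γ ih => simp [c1, ih]

theorem succ_ren (t : Tm S) (f : ℕ → ℕ) :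
    (t.ren Nat.succ).ren (upr f) = (t.ren f).ren Nat.succ := by
  simp only [ren_ren]; rfl

/-- A renaming that keeps the fixed declarations. -/
def RFix (g : ℕ → ℕ) (m m' : ℕ) : Prop := ∀ j, g (m + j) = m' + j

theorem RFix.fix {g : ℕ → ℕ} {m m' : ℕ} (h : RFix g m m') :
    Fix (fun i => (.var (g i) : Tm S)) m m' := fun j => congrArg Tm.var (h j)

theorem RFix.up {g : ℕ → ℕ} {m m' : ℕ} (h : RFix g m m') : RFix (upr g) (m + 1) (m' + 1) := by
  intro j
  rw [show m + 1 + j = m + j + 1 by omega, show m' + 1 + j = m' + j + 1 by omega]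
  simp [upr, h j]

theorem RFix.succ (m : ℕ) : RFix Nat.succ m (m + 1) := fun j => by omega

theorem RFix.comp {f g : ℕ → ℕ} {m m' m'' : ℕ} (h : RFix f m m') (k : RFix g m' m'') :
    RFix (g ∘ f) m m'' := fun j => by simp [h j, k (j)]

theorem qV_ren {g : ℕ → ℕ} {m m' : ℕ} (h : RFix g m m') : (qV m : Tm S).ren g = qV m' := by
  rw [ren_eq_sub]; exact qV_sub h.fix

theorem oV_ren {g : ℕ → ℕ} {m m' : ℕ} (h : RFix g m m') : (oV m : Tm S).ren g = oV m' := by
  rw [ren_eq_sub]; exact oV_sub h.fix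

theorem q0V_ren {g : ℕ → ℕ} {m m' : ℕ} (h : RFix g m m') : (q0V m : Tm S).ren g = q0V m' := by
  rw [ren_eq_sub]; exact q0V_sub h.fix

theorem dV_ren {g : ℕ → ℕ} {m m' : ℕ} (h : RFix g m m') (c : Tm S) :
    (dV m c).ren g = dV m' (c.ren g) := by
  rw [ren_eq_sub, ren_eq_sub c]; exact dV_sub h.fix c

theorem konst_ren {g : ℕ → ℕ} {m m' : ℕ} (h : RFix g m m') (c : Tm S) :
    (konst m c).ren g = konst m' (c.ren g) := by
  rw [ren_eq_sub, ren_eq_sub c]; exact konst_sub h.fix c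

theorem el_ren {g : ℕ → ℕ} {m m' : ℕ} (h : RFix g m m') (A : Tm S) :
    (el m A).ren g = (tr m' g (q0V m') A).2 := by
  rw [el, (tr_ren A m m' id g _ h).2, q0V_ren h]; rfl

theorem el_succ (m : ℕ) (A : Tm S) : el (m + 1) (A.ren Nat.succ) = (el m A).ren Nat.succ := by
  rw [el_ren (RFix.succ m), el, tr_src]; rfl

theorem ctyp_ren {g : ℕ → ℕ} {m m' : ℕ} (h : RFix g m m') (e : Tm S) :
    (ctyp m e).ren g = ctyp m' (e.ren g) := by
  simp only [ctyp, Tm.ren, oV_ren h, ren_ren]; rfl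

theorem g0Ty_ren {g : ℕ → ℕ} {m m' : ℕ} (h : RFix g m m') : (g0Ty m : Tm S).ren g = g0Ty m' := by
  simp only [g0Ty, Tm.ren, dV_ren h, q0V_ren h, oV_ren h.up, qV_ren h.up.up, qV_ren h.up.up.up]

/-- A context that contains the fixed declarations at the variables above `m`. -/
structure Based (Ax : S → S → Prop) (Ru : S → S → S → Prop) (o : S) (Δ : List (Tm S)) (m : ℕ) :
    Prop where
  wf : Wf Ax Ru Δ
  w0 : Look Δ m (dV m (q0V m))
  g0 : Look Δ (m + 1) (g0Ty m)
  d : Look Δ (m + 2) (.pi (oV m) (.srt o))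
  q0 : Look Δ (m + 3) (qV m)
  q : Look Δ (m + 4) (.srt o)

theorem Based.ren {Δ Δ' : List (Tm S)} {m m' : ℕ} {g : ℕ → ℕ} (b : Based Ax Ru o Δ m)
    (w : Wf Ax Ru Δ') (hg : RenOK Δ Δ' g) (h : RFix g m m') : Based Ax Ru o Δ' m' where
  wf := w
  w0 := by
    have := hg _ _ b.w0
    rwa [dV_ren h, q0V_ren h, show g m = m' from h 0] at this
  g0 := by
    have := hg _ _ b.g0
    rwa [g0Ty_ren h, h 1] at this
  d := by
    have := hg _ _ b.d
    rw [h 2] at this
    simpa only [Tm.ren, oV_ren h] using this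
  q0 := by
    have := hg _ _ b.q0
    rwa [qV_ren h, h 3] at this
  q := by
    have := hg _ _ b.q
    rwa [h 4] at this

theorem Based.cons {Δ : List (Tm S)} {m : ℕ} {A : Tm S} {s : S} (b : Based Ax Ru o Δ m)
    (hA : Typed Ax Ru Δ A (.srt s)) : Based Ax Ru o (A :: Δ) (m + 1) :=
  b.ren (.cons b.wf hA) (RenOK.succ _ _) (RFix.succ m)

namespace Based

variable {Δ : List (Tm S)} {m : ℕ}

theorem qT (b : Based Ax Ru o Δ m) : Typed Ax Ru Δ (qV m) (.srt o) := b.q.typed b.wf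

theorem oT (b : Based Ax Ru o Δ m) (H : UnitAt Ax Ru o) : Typed Ax Ru Δ (oV m) (.srt o) :=
  .prod b.qT (Typed.weakSort b.qT b.qT) (H.inn o)

theorem q0T (b : Based Ax Ru o Δ m) : Typed Ax Ru Δ (q0V m) (qV m) := b.q0.typed b.wf

theorem konstT (b : Based Ax Ru o Δ m) (H : UnitAt Ax Ru o) {c : Tm S}
    (hc : Typed Ax Ru Δ c (qV m)) : Typed Ax Ru Δ (konst m c) (oV m) :=
  .abs (Hub.Typed.weak hc b.qT) (b.oT H)

theorem dT (b : Based Ax Ru o Δ m) (H : UnitAt Ax Ru o) {c : Tm S}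
    (hc : Typed Ax Ru Δ c (qV m)) : Typed Ax Ru Δ (dV m c) (.srt o) :=
  Hub.Typed.app (b.d.typed b.wf) (b.konstT H hc)

theorem wT (b : Based Ax Ru o Δ m) (H : UnitAt Ax Ru o) :
    Typed Ax Ru Δ (dV m (q0V m)) (.srt o) := b.dT H b.q0T

theorem bw (b : Based Ax Ru o Δ m) (H : UnitAt Ax Ru o) :
    Based Ax Ru o (dV m (q0V m) :: Δ) (m + 1) := b.cons (b.wT H)

theorem bo (b : Based Ax Ru o Δ m) (H : UnitAt Ax Ru o) :
    Based Ax Ru o (oV m :: Δ) (m + 1) := b.cons (b.oT H)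

/-- The sort `s` as a type of values. -/
theorem sortT (b : Based Ax Ru o Δ m) (H : UnitAt Ax Ru o) {s t : S} (h : Ax s t) {c : Tm S}
    (hc : Typed Ax Ru Δ c (qV m)) :
    Typed Ax Ru Δ (.pi (dV m c) (.pi (oV (m + 1)) (.srt s))) (.srt t) := by
  have b1 := b.cons (b.dT H hc)
  exact .prod (b.dT H hc) (.prod (b1.oT H) ((b1.bo H).wf.axiom_sort h) (H.inn t)) (H.inn t)

theorem codeT (b : Based Ax Ru o Δ m) (H : UnitAt Ax Ru o) {e : Tm S} {s t : S}
    (he : Typed Ax Ru Δ e (.srt s)) (h : Ax s t) :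
    Typed Ax Ru Δ (code m e) (.pi (dV m (q0V m)) (.pi (oV (m + 1)) (.srt s))) := by
  obtain ⟨_, _, _, _, _, h2⟩ := (b.sortT H h b.q0T).pi_inv rfl
  exact .abs (.abs (Typed.weakSort (Typed.weakSort he (b.wT H)) ((b.bw H).oT H)) h2)
    (b.sortT H h b.q0T)

theorem decT (b : Based Ax Ru o Δ m) (H : UnitAt Ax Ru o) {v c : Tm S} {s : S}
    (hv : Typed Ax Ru Δ v (.pi (dV m (q0V m)) (.pi (oV (m + 1)) (.srt s))))
    (hc : Typed Ax Ru Δ c (qV m)) : Typed Ax Ru Δ (dec m c v) (.srt s) := by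
  have h1 := Hub.Typed.app hv (b.w0.typed b.wf)
  simp only [Tm.sub] at h1
  rw [oV_sub (m' := m) (fun j => by
    rw [show m + 1 + j = m + j + 1 by omega]; rfl)] at h1
  exact Hub.Typed.app h1 (b.konstT H hc)

end Based

theorem UnitAt.base (H : UnitAt Ax Ru o) : Based Ax Ru o (baseCtx o) 0 := by
  obtain ⟨k, hk⟩ := H.sorted
  have h1 : Typed Ax Ru [Tm.srt o] (.var 0) (.srt o) := .var (.ax hk)
  have w2 : Wf Ax Ru [Tm.var 0, Tm.srt o] := .cons (.cons .nil (.ax hk)) h1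
  have q2 : Typed Ax Ru [Tm.var 0, Tm.srt o] (.var 1) (.srt o) := Typed.weakSort h1 h1
  have o2 : Typed Ax Ru [Tm.var 0, Tm.srt o] (.pi (.var 1) (.var 2)) (.srt o) :=
    .prod q2 (Typed.weakSort q2 q2) (H.inn o)
  have hD : Typed Ax Ru [Tm.var 0, Tm.srt o] (.pi (.pi (.var 1) (.var 2)) (.srt o)) (.srt k) :=
    .prod o2 (Typed.weakSort (w2.axiom_sort hk) o2) (H.inn k)
  have w3 : Wf Ax Ru (Tm.pi (.pi (.var 1) (.var 2)) (.srt o) :: [Tm.var 0, Tm.srt o]) :=
    .cons w2 hD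
  have q3 := Look.typed (.succ (.succ (.zero (Γ := []) (A := Tm.srt o)))) w3
  have k3 := Look.typed (.succ (.zero (Γ := [Tm.srt o]) (A := Tm.var 0))) w3
  simp only [Tm.ren] at q3 k3
  have qq3 : Typed Ax Ru (Tm.pi (.pi (.var 1) (.var 2)) (.srt o) :: [Tm.var 0, Tm.srt o])
      (.pi (.var 2) (.var 3)) (.srt o) := .prod q3 (Typed.weakSort q3 q3) (H.inn o)
  have d3 : Typed Ax Ru (Tm.pi (.pi (.var 1) (.var 2)) (.srt o) :: [Tm.var 0, Tm.srt o])
      (.app (.var 0) (.lam (.var 2) (.var 2))) (.srt o) :=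
    Hub.Typed.app (Look.typed .zero w3) (.abs (Hub.Typed.weak k3 q3) qq3)
  have wA := Wf.cons w3 d3
  have qA := Typed.weakSort q3 d3
  have oA := Typed.weakSort qq3 d3
  simp only [Tm.ren, upr] at qA oA
  have qB := Typed.weakSort qA oA
  simp only [Tm.ren] at qB
  have hG : Typed Ax Ru (Tm.pi (.pi (.var 1) (.var 2)) (.srt o) :: [Tm.var 0, Tm.srt o])
      (.pi (.app (.var 0) (.lam (.var 2) (.var 2)))
        (.pi (.pi (.var 3) (.var 4)) (.pi (.var 4) (.var 5)))) (.srt o) :=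
    .prod d3 (.prod oA (.prod qB (Typed.weakSort qB qB) (H.inn o)) (H.inn o)) (H.inn o)
  have w4 := Wf.cons w3 hG
  have d4 := Typed.weakSort d3 hG
  simp only [Tm.ren, upr] at d4
  refine ⟨.cons w4 d4, ?_, ?_, ?_, ?_, ?_⟩
  · exact .zero
  · exact .succ .zero
  · exact .succ (.succ .zero)
  · exact .succ (.succ (.succ .zero))
  · exact .succ (.succ (.succ (.succ .zero)))

theorem renOK_append (E Δ : List (Tm S)) : RenOK Δ (E ++ Δ) (E.length + ·) := by
  intro i A h
  induction E with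
  | nil =>
    simpa only [List.nil_append, List.length_nil, Nat.zero_add,
      show (fun x : ℕ => x) = id from rfl, ren_id] using h
  | cons E Es ih =>
    have := Look.succ (A := E) ih
    rw [ren_ren] at this
    rw [List.length_cons, List.cons_append,
      show (fun x => Es.length + 1 + x) = Nat.succ ∘ (fun x => Es.length + x) by
        funext x; simp; omega]
    exact this

theorem ctx_based (H : UnitAt Ax Ru o) {R Γ : List (Tm S)} (w : Wf Ax Ru (ctx o R Γ)) :
    Based Ax Ru o (ctx o R Γ) (off R Γ) := by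
  have h := H.base.ren (Δ' := ctx o R Γ) (m' := off R Γ) w
    ((renOK_append R _).comp (renOK_append (c1 R.length Γ) (R ++ baseCtx o)))
    (fun j => by simp [c1_length, off]; omega)
  exact h

end Vale.Agent.P340.Unit
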