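import Vale.Agent.P340.Hub.Typed
import Vale.Agent.P340.Unit.Confl

/-!
Derivations that carry the validity of the types of applications.
-/

namespace Vale.Agent.P340.Unit

open Vale.Agent.P340.Hub

universe u

variable {S : Type u} {Ax : S → S → Prop} {Ru : S → S → S → Prop}

/-- Derivations with valid application types. -/
inductive DTyped (Ax : S → S → Prop) (Ru : S → S → S → Prop) :
    List (Tm S) → Tm S → Tm S → Prop
  | ax {s t} : Ax s t → DTyped Ax Ru [] (.srt s) (.srt t)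
  | var {Γ A s} : DTyped Ax Ru Γ A (.srt s) → DTyped Ax Ru (A :: Γ) (.var 0) (A.ren Nat.succ)
  | weak {Γ M B A s} : DTyped Ax Ru Γ M B → DTyped Ax Ru Γ A (.srt s) →
      DTyped Ax Ru (A :: Γ) (M.ren Nat.succ) (B.ren Nat.succ)
  | prod {Γ A B s₁ s₂ s₃} : DTyped Ax Ru Γ A (.srt s₁) → DTyped Ax Ru (A :: Γ) B (.srt s₂) →
      Ru s₁ s₂ s₃ → DTyped Ax Ru Γ (.pi A B) (.srt s₃)
  | abs {Γ A M B s} : DTyped Ax Ru (A :: Γ) M B → DTyped Ax Ru Γ (.pi A B) (.srt s) →
      DTyped Ax Ru Γ (.lam A M) (.pi A B)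
  | app {Γ M N A B s t} : DTyped Ax Ru Γ M (.pi A B) → DTyped Ax Ru Γ N A →
      DTyped Ax Ru Γ (.pi A B) (.srt s) → DTyped Ax Ru Γ (B.sub (inst N)) (.srt t) →
      DTyped Ax Ru Γ (.app M N) (B.sub (inst N))
  | appSort {Γ M N A B s t} : DTyped Ax Ru Γ M (.pi A B) → DTyped Ax Ru Γ N A →
      DTyped Ax Ru Γ (.pi A B) (.srt s) → B.sub (inst N) = .srt t →
      DTyped Ax Ru Γ (.app M N) (B.sub (inst N))
  | conv {Γ M A B s} : DTyped Ax Ru Γ M A → DTyped Ax Ru Γ B (.srt s) →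
      Relation.EqvGen Step A B → DTyped Ax Ru Γ M B

/-- Well-formed contexts of the annotated derivations. -/
inductive DWf (Ax : S → S → Prop) (Ru : S → S → S → Prop) : List (Tm S) → Prop
  | nil : DWf Ax Ru []
  | cons {Γ A s} : DWf Ax Ru Γ → DTyped Ax Ru Γ A (.srt s) → DWf Ax Ru (A :: Γ)

theorem DTyped.wf {Γ : List (Tm S)} {M A : Tm S} (h : DTyped Ax Ru Γ M A) : DWf Ax Ru Γ := by
  induction h with
  | ax => exact .nil
  | var h ih => exact .cons ih h
  | weak _ h2 ih _ => exact .cons ih h2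
  | prod _ _ _ ih _ => exact ih
  | abs _ _ _ ih => exact ih
  | app _ _ _ _ ih _ _ _ => exact ih
  | appSort _ _ _ _ ih _ _ => exact ih
  | conv _ _ _ ih _ => exact ih

theorem DWf.axiom_sort {Γ : List (Tm S)} (w : DWf Ax Ru Γ) {s t : S} (h : Ax s t) :
    DTyped Ax Ru Γ (.srt s) (.srt t) := by
  induction w with
  | nil => exact .ax h
  | cons _ hA ih => exact DTyped.weak ih hA

theorem DTyped.look {Γ : List (Tm S)} {i : ℕ} {A : Tm S} (h : Look Γ i A) (w : DWf Ax Ru Γ) :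
    DTyped Ax Ru Γ (.var i) A := by
  induction h with
  | zero => cases w with | cons _ hA => exact .var hA
  | succ _ ih => cases w with | cons w' hA => exact DTyped.weak (ih w') hA

theorem DTyped.pi_dom {Γ : List (Tm S)} {X T : Tm S} (h : DTyped Ax Ru Γ X T) :
    ∀ {A B}, X = .pi A B → ∃ s, DTyped Ax Ru Γ A (.srt s) := by
  induction h with
  | ax => intro A B e; cases e
  | var => intro A B e; cases e
  | @weak Γ M B0 A0 s _ hA ih _ =>
    intro A B e
    cases M with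
    | pi a b =>
      cases e
      obtain ⟨s1, h1⟩ := ih rfl
      exact ⟨s1, DTyped.weak h1 hA⟩
    | _ => cases e
  | prod hA => intro A B e; cases e; exact ⟨_, hA⟩
  | abs => intro A B e; cases e
  | app => intro A B e; cases e
  | appSort => intro A B e; cases e
  | conv _ _ _ ih => intro A B e; exact ih e

theorem DTyped.ren {Γ : List (Tm S)} {M A : Tm S} (h : DTyped Ax Ru Γ M A) :
    ∀ {Γ' : List (Tm S)} {f : ℕ → ℕ}, RenOK Γ Γ' f → DWf Ax Ru Γ' →
      DTyped Ax Ru Γ' (M.ren f) (A.ren f) := by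
  induction h with
  | ax h => intro Γ' f _ w; exact w.axiom_sort h
  | var _ _ => intro Γ' f hf w; exact DTyped.look (hf _ _ .zero) w
  | weak _ _ ih _ => intro Γ' f hf w; rw [ren_ren, ren_ren]; exact ih hf.tail w
  | prod _ _ hr ihA ihB =>
    intro Γ' f hf w
    exact .prod (ihA hf w) (ihB (hf.up _) (.cons w (ihA hf w))) hr
  | @abs Γ A M B s _ _ ihM ihP =>
    intro Γ' f hf w
    obtain ⟨s1, h1⟩ := (ihP hf w).pi_dom rfl
    exact .abs (ihM (hf.up _) (.cons w h1)) (ihP hf w)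
  | app _ _ _ _ ihM ihN ihP ihT =>
    intro Γ' f hf w
    have hT := ihT hf w
    rw [inst_ren] at hT ⊢
    exact .app (ihM hf w) (ihN hf w) (ihP hf w) hT
  | appSort _ _ _ e ihM ihN ihP =>
    intro Γ' f hf w
    have e' := congrArg (Tm.ren f) e
    rw [inst_ren] at e' ⊢
    exact .appSort (ihM hf w) (ihN hf w) (ihP hf w) e'
  | conv _ _ hc ih ihB => intro Γ' f hf w; exact .conv (ih hf w) (ihB hf w) (Conv.ren hc f)

theorem DTyped.sub {Γ : List (Tm S)} {M A : Tm S} (h : DTyped Ax Ru Γ M A) :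
    ∀ {Γ' : List (Tm S)} {σ : ℕ → Tm S},
      (∀ i A, Look Γ i A → DTyped Ax Ru Γ' (σ i) (A.sub σ)) → DWf Ax Ru Γ' →
      DTyped Ax Ru Γ' (M.sub σ) (A.sub σ) := by
  have up : ∀ {Γ Γ' : List (Tm S)} {σ : ℕ → Tm S} {A : Tm S} {s : S},
      (∀ i B, Look Γ i B → DTyped Ax Ru Γ' (σ i) (B.sub σ)) →
      DTyped Ax Ru Γ' (A.sub σ) (.srt s) →
      ∀ i B, Look (A :: Γ) i B → DTyped Ax Ru (A.sub σ :: Γ') (ups σ i) (B.sub (ups σ)) := by
    intro Γ Γ' σ A s hσ hA i B hB
    cases hB with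
    | zero =>
      rw [sub_ren, show ups σ ∘ Nat.succ = fun i => (σ i).ren Nat.succ from rfl, ← ren_sub]
      exact .var hA
    | succ hB =>
      rw [sub_ren, show ups σ ∘ Nat.succ = fun i => (σ i).ren Nat.succ from rfl, ← ren_sub]
      exact DTyped.weak (hσ _ _ hB) hA
  induction h with
  | ax h => intro Γ' σ _ w; exact w.axiom_sort h
  | var _ _ => intro Γ' σ hσ w; exact hσ _ _ .zero
  | weak _ _ ih _ =>
    intro Γ' σ hσ w; rw [sub_ren, sub_ren]
    refine ih (fun i B hB => ?_) w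
    rw [← sub_ren]; exact hσ _ _ (.succ hB)
  | prod _ _ hr ihA ihB =>
    intro Γ' σ hσ w
    exact .prod (ihA hσ w) (ihB (up hσ (ihA hσ w)) (.cons w (ihA hσ w))) hr
  | @abs Γ A M B s _ _ ihM ihP =>
    intro Γ' σ hσ w
    obtain ⟨s1, h1⟩ := (ihP hσ w).pi_dom rfl
    exact .abs (ihM (up hσ h1) (.cons w h1)) (ihP hσ w)
  | app _ _ _ _ ihM ihN ihP ihT =>
    intro Γ' σ hσ w
    have hT := ihT hσ w
    rw [inst_sub] at hT ⊢
    exact .app (ihM hσ w) (ihN hσ w) (ihP hσ w) hT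
  | appSort _ _ _ e ihM ihN ihP =>
    intro Γ' σ hσ w
    have e' := congrArg (Tm.sub σ) e
    rw [inst_sub] at e' ⊢
    exact .appSort (ihM hσ w) (ihN hσ w) (ihP hσ w) e'
  | conv _ _ hc ih ihB => intro Γ' σ hσ w; exact .conv (ih hσ w) (ihB hσ w) (Conv.sub hc σ)

theorem DTyped.pi_inv {Γ : List (Tm S)} {X T : Tm S} (h : DTyped Ax Ru Γ X T) :
    ∀ {A B}, X = .pi A B → ∃ s₁ s₂, DTyped Ax Ru Γ A (.srt s₁) ∧
      DTyped Ax Ru (A :: Γ) B (.srt s₂) := by
  induction h with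
  | ax => intro A B e; cases e
  | var => intro A B e; cases e
  | @weak Γ M B0 A0 s _ hA ih _ =>
    intro A B e
    cases M with
    | pi a b =>
      cases e
      obtain ⟨s1, s2, h1, h2⟩ := ih rfl
      exact ⟨s1, s2, DTyped.weak h1 hA,
        h2.ren ((RenOK.succ Γ A0).up a) (.cons (.cons h1.wf hA) (DTyped.weak h1 hA))⟩
    | _ => cases e
  | prod hA hB => intro A B e; cases e; exact ⟨_, _, hA, hB⟩
  | abs => intro A B e; cases e
  | app => intro A B e; cases e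
  | appSort => intro A B e; cases e
  | conv _ _ _ ih => intro A B e; exact ih e

theorem DTyped.correct {Γ : List (Tm S)} {M A : Tm S} (h : DTyped Ax Ru Γ M A) :
    (∃ s, A = .srt s) ∨ ∃ s, DTyped Ax Ru Γ A (.srt s) := by
  induction h with
  | ax => exact .inl ⟨_, rfl⟩
  | var h _ => exact .inr ⟨_, DTyped.weak h h⟩
  | weak _ hA ih _ =>
    rcases ih with ⟨s, rfl⟩ | ⟨s, hs⟩
    · exact .inl ⟨s, rfl⟩
    · exact .inr ⟨s, DTyped.weak hs hA⟩
  | prod => exact .inl ⟨_, rfl⟩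
  | abs _ hP => exact .inr ⟨_, hP⟩
  | app _ _ _ hT => exact .inr ⟨_, hT⟩
  | appSort _ _ _ e => exact .inl ⟨_, e⟩
  | conv _ hB _ _ => exact .inr ⟨_, hB⟩

theorem DTyped.of_typed {Γ : List (Tm S)} {M A : Tm S} (h : Typed Ax Ru Γ M A) :
    DTyped Ax Ru Γ M A := by
  induction h with
  | ax h => exact .ax h
  | var _ ih => exact .var ih
  | weak _ _ ih1 ih2 => exact .weak ih1 ih2
  | prod _ _ hr ih1 ih2 => exact .prod ih1 ih2 hr
  | abs _ _ ih1 ih2 => exact .abs ih1 ih2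
  | @app Γ M N A B _ _ ihM ihN =>
    rcases ihM.correct with ⟨_, e⟩ | ⟨s, hP⟩
    · cases e
    · obtain ⟨_, t, _, hB⟩ := hP.pi_inv rfl
      refine .app ihM ihN hP (hB.sub (σ := inst N) (fun i C hC => ?_) ihN.wf)
      cases hC with
      | zero => rw [inst_succ]; exact ihN
      | succ hC => rw [inst_succ]; exact DTyped.look hC ihN.wf
  | conv _ _ hc ih1 ih2 => exact .conv ih1 ih2 hc

/-- Every sort of the expression is the subject of an axiom. -/
def AllTy (Ax : S → S → Prop) : Tm S → Prop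
  | .var _ => True
  | .srt s => ∃ t, Ax s t
  | .app a b => AllTy Ax a ∧ AllTy Ax b
  | .lam a b => AllTy Ax a ∧ AllTy Ax b
  | .pi a b => AllTy Ax a ∧ AllTy Ax b

theorem allTy_ren (M : Tm S) : ∀ f, AllTy Ax (M.ren f) ↔ AllTy Ax M := by
  induction M <;> intro f <;> simp_all [AllTy, Tm.ren]

theorem allTy_sub (M : Tm S) : ∀ {σ : ℕ → Tm S}, AllTy Ax M → (∀ i, AllTy Ax (σ i)) →
    AllTy Ax (M.sub σ) := by
  have up : ∀ {σ : ℕ → Tm S}, (∀ i, AllTy Ax (σ i)) → ∀ i, AllTy Ax (ups σ i) := by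
    intro σ h i
    cases i with
    | zero => trivial
    | succ i => exact (allTy_ren _ _).2 (h i)
  induction M with
  | var i => intro σ _ h; exact h i
  | srt s => intro σ h _; exact h
  | app a b iha ihb => intro σ h hs; exact ⟨iha h.1 hs, ihb h.2 hs⟩
  | lam a b iha ihb => intro σ h hs; exact ⟨iha h.1 hs, ihb h.2 (up hs)⟩
  | pi a b iha ihb => intro σ h hs; exact ⟨iha h.1 hs, ihb h.2 (up hs)⟩

theorem allTy_step {M M' : Tm S} (h : Step M M') : AllTy Ax M → AllTy Ax M' := by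
  induction h with
  | beta A b a =>
    exact fun h => allTy_sub b h.1.2 fun i => by cases i <;> first | exact h.2 | trivial
  | app₁ b _ ih => exact fun h => ⟨ih h.1, h.2⟩
  | app₂ a _ ih => exact fun h => ⟨h.1, ih h.2⟩
  | lam₁ b _ ih => exact fun h => ⟨ih h.1, h.2⟩
  | lam₂ a _ ih => exact fun h => ⟨h.1, ih h.2⟩
  | pi₁ b _ ih => exact fun h => ⟨ih h.1, h.2⟩
  | pi₂ a _ ih => exact fun h => ⟨h.1, ih h.2⟩

theorem DTyped.allTy {Γ : List (Tm S)} {M A : Tm S} (h : DTyped Ax Ru Γ M A) : AllTy Ax M := by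
  induction h with
  | ax h => exact ⟨_, h⟩
  | var => trivial
  | weak _ _ ih _ => exact (allTy_ren _ _).2 ih
  | prod _ _ _ ih1 ih2 => exact ⟨ih1, ih2⟩
  | abs _ _ ih1 ih2 => exact ⟨ih2.1, ih1⟩
  | app _ _ _ _ ih1 ih2 => exact ⟨ih1, ih2⟩
  | appSort _ _ _ _ ih1 ih2 => exact ⟨ih1, ih2⟩
  | conv _ _ _ ih => exact ih

/-- If the expression is a sort, that sort is the subject of an axiom. -/
def SortTy (Ax : S → S → Prop) (A : Tm S) : Prop := ∀ s, A = .srt s → ∃ t, Ax s t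

theorem SortTy.of_allTy {A : Tm S} (h : AllTy Ax A) : SortTy Ax A := fun _ e => by
  subst e; exact h

/-- A type convertible to a valid one has, if it is a sort, a typed sort. -/
theorem SortTy.of_conv {A B : Tm S} (hB : AllTy Ax B) (h : Conv A B) : SortTy Ax A := by
  rintro s rfl
  have hs := Conv.to_srt (.symm _ _ h)
  suffices ∀ X, Steps B X → AllTy Ax X from this _ hs
  intro X hX
  induction hX with
  | refl => exact hB
  | tail _ s ih => exact allTy_step s ih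

end Vale.Agent.P340.Unit
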