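import Vale.Agent.P340.Unit.Skel

/-!
Erasure of translated expressions to skeletons, along the class of each subexpression.
-/

namespace Vale.Agent.P340.Unit

open Vale.Agent.P340.Hub

universe u

variable {S : Type u}

/-- Classes of variables and subexpressions: erased, the constant of codes, family heads, the log
family, logs, computations, values, and the expressions inside logs. -/
inductive Kd | H | K0 | G | D | L | C | V | Q
  deriving DecidableEq

/-- Classes of the variables that survive erasure. -/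
def Kd.Kept : Kd → Prop
  | .L => True
  | .C => True
  | .Q => True
  | _ => False

/-- Add a class for a new variable. -/
def push (k : Kd) (Θ : ℕ → Kd) : ℕ → Kd
  | 0 => k
  | n + 1 => Θ n

/-- Hide the variable of the enclosing log. -/
def demote (Θ : ℕ → Kd) (i : ℕ) : Kd := if Θ i = .Q then .H else Θ i

/-- The variable map under an erased binder. -/
def skip (ρ : ℕ → ℕ) : ℕ → ℕ
  | 0 => 0
  | n + 1 => ρ n

theorem demote_push {k : Kd} (hk : k ≠ .Q) (Θ : ℕ → Kd) :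
    demote (push k Θ) = push k (demote Θ) := by
  funext i
  cases i with
  | zero => simp [demote, push, hk]
  | succ i => rfl

theorem demote_demote (Θ : ℕ → Kd) : demote (demote Θ) = demote Θ := by
  funext i; simp only [demote]; split_ifs <;> simp_all

/-- Erasure. -/
inductive Er : (ℕ → Kd) → (ℕ → ℕ) → Kd → Tm S → Sk → Prop
  | var {Θ ρ i k} : Θ i = k → k.Kept → Er Θ ρ k (.var i) (.var (ρ i))
  | zero {Θ ρ i} : Θ i = .K0 → Er Θ ρ .C (.var i) star
  | head {Θ ρ i} : Θ i = .G → Er Θ ρ .G (.var i) star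
  | spine {Θ ρ f a} : Er Θ ρ .G f star → Er Θ ρ .G (.app f a) star
  | qApp {Θ ρ f a tf ta} : Er Θ ρ .L f tf → Er Θ ρ .Q a ta → Er Θ ρ .Q (.app f a) (.app tf ta)
  | qSkip {Θ ρ f a tf ta} : Er Θ ρ .L f tf → Er Θ ρ .Q a ta → Er Θ ρ .Q (.app f a) ta
  | log {Θ ρ g x T e b q tx tT tb tq} : Er Θ ρ .G g star → Er Θ ρ .C x tx → Er Θ ρ .V T tT →
      Er Θ ρ .L b tb → Er Θ ρ .Q q tq →
      Er Θ ρ .Q (.app (.app (.app (.app g x) (.lam T e)) b) q) (node tT (node tx (node tb tq)))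
  | logSkip {Θ ρ g x T e b q tq} : Er Θ ρ .G g star → Er Θ ρ .Q q tq →
      Er Θ ρ .Q (.app (.app (.app (.app g x) (.lam T e)) b) q) tq
  | log0 {Θ ρ g x b q tx tb tq} : Er Θ ρ .G g star → Er Θ ρ .C x tx →
      Er Θ ρ .L b tb → Er Θ ρ .Q q tq →
      Er Θ ρ .Q (.app (.app (.app g x) b) q) (node tx (node tb tq))
  | log0Skip {Θ ρ g x b q tq} : Er Θ ρ .G g star → Er Θ ρ .Q q tq →
      Er Θ ρ .Q (.app (.app (.app g x) b) q) tq
  | lLam {Θ ρ A b tb} : Er (push .Q (demote Θ)) (upr ρ) .Q b tb →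
      Er Θ ρ .L (.lam A b) (.lam star tb)
  | cApp {Θ ρ f a tf ta} : Er Θ ρ .C f tf → Er Θ ρ .L a ta → Er Θ ρ .V (.app f a) (.app tf ta)
  | vApp {Θ ρ f a tf ta} : Er Θ ρ .V f tf → Er Θ ρ .C a ta → Er Θ ρ .C (.app f a) (.app tf ta)
  | cLam {Θ ρ A b tb} : Er (push .L Θ) (upr ρ) .V b tb → Er Θ ρ .C (.lam A b) (.lam star tb)
  | vLam {Θ ρ A b tb} : Er (push .C Θ) (upr ρ) .C b tb → Er Θ ρ .V (.lam A b) (.lam star tb)
  | sort {Θ ρ i a X ta} : Θ i = .D → Er Θ ρ .L a ta →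
      Er Θ ρ .V (.pi (.app (.var i) a) X) (.pi ta star)
  | prod {Θ ρ A₁ A₂ B tB} : Er (push .H (push .C Θ)) (skip (upr ρ)) .V B tB →
      Er Θ ρ .V (.pi A₁ (.pi A₂ B)) (.pi star tB)

/-- A renaming compatible with erasure. -/
def RenEr (Θ : ℕ → Kd) (ρ : ℕ → ℕ) (Θ' : ℕ → Kd) (ρ' : ℕ → ℕ) (f g : ℕ → ℕ) : Prop :=
  ∀ i, Θ i ≠ .H → Θ' (f i) = Θ i ∧ ((Θ i).Kept → ρ' (f i) = g (ρ i))

theorem RenEr.drop {Θ Θ' : ℕ → Kd} {ρ ρ' f g : ℕ → ℕ} (h : RenEr Θ ρ Θ' ρ' f g) :
    RenEr (push .H Θ) (skip ρ) (push .H Θ') (skip ρ') (upr f) g := by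
  intro i hi
  cases i with
  | zero => exact absurd rfl hi
  | succ i => exact h i hi

theorem RenEr.keep {Θ Θ' : ℕ → Kd} {ρ ρ' f g : ℕ → ℕ} (h : RenEr Θ ρ Θ' ρ' f g) (k : Kd) :
    RenEr (push k Θ) (upr ρ) (push k Θ') (upr ρ') (upr f) (upr g) := by
  intro i hi
  cases i with
  | zero => exact ⟨rfl, fun _ => rfl⟩
  | succ i => exact ⟨(h i hi).1, fun hk => congrArg Nat.succ ((h i hi).2 hk)⟩

theorem RenEr.demote {Θ Θ' : ℕ → Kd} {ρ ρ' f g : ℕ → ℕ} (h : RenEr Θ ρ Θ' ρ' f g) :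
    RenEr (Unit.demote Θ) ρ (Unit.demote Θ') ρ' f g := by
  intro i hi
  simp only [Unit.demote] at hi ⊢
  by_cases hq : Θ i = .Q
  · simp [hq] at hi
  · simp only [if_neg hq] at hi ⊢
    obtain ⟨e1, e2⟩ := h i hi
    exact ⟨by simp [e1, hq], e2⟩

theorem Er.ren {Θ : ℕ → Kd} {ρ : ℕ → ℕ} {k : Kd} {X : Tm S} {t : Sk} (h : Er Θ ρ k X t) :
    ∀ {Θ' : ℕ → Kd} {ρ' f g : ℕ → ℕ}, RenEr Θ ρ Θ' ρ' f g →
      Er Θ' ρ' k (X.ren f) (t.ren g) := by
  induction h with
  | @var Θ ρ i k hi hk =>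
    intro Θ' ρ' f g r
    subst hi
    have ne : Θ i ≠ .H := by intro e; rw [e] at hk; exact hk
    obtain ⟨e1, e2⟩ := r i ne
    simp only [Tm.ren, ← e2 hk]
    exact .var e1 hk
  | @zero Θ ρ i hi => intro Θ' ρ' f g r; exact .zero ((r i (by simp [hi])).1.trans hi)
  | @head Θ ρ i hi => intro Θ' ρ' f g r; exact .head ((r i (by simp [hi])).1.trans hi)
  | spine _ ih => intro Θ' ρ' f g r; exact .spine (ih r)
  | qApp _ _ ih1 ih2 => intro Θ' ρ' f g r; exact .qApp (ih1 r) (ih2 r)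
  | qSkip _ _ ih1 ih2 => intro Θ' ρ' f g r; exact .qSkip (ih1 r) (ih2 r)
  | @log Θ ρ g0 x T e b q tx tT tb tq _ _ _ _ _ ihg ihx ihT ihb ihq =>
    intro Θ' ρ' f g r
    have := Er.log (e := e.ren (upr f)) (ihg r) (ihx r) (ihT r) (ihb r) (ihq r)
    simpa [node, Tm.ren, ren_ren, Function.comp_def, upr] using this
  | logSkip _ _ ihg ihq => intro Θ' ρ' f g r; exact .logSkip (ihg r) (ihq r)
  | log0 _ _ _ _ ihg ihx ihb ihq =>
    intro Θ' ρ' f g r
    have := Er.log0 (ihg r) (ihx r) (ihb r) (ihq r)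
    simpa [node, Tm.ren, ren_ren, Function.comp_def, upr] using this
  | log0Skip _ _ ihg ihq => intro Θ' ρ' f g r; exact .log0Skip (ihg r) (ihq r)
  | lLam _ ih => intro Θ' ρ' f g r; exact .lLam (ih (r.demote.keep _))
  | cApp _ _ ih1 ih2 => intro Θ' ρ' f g r; exact .cApp (ih1 r) (ih2 r)
  | vApp _ _ ih1 ih2 => intro Θ' ρ' f g r; exact .vApp (ih1 r) (ih2 r)
  | cLam _ ih => intro Θ' ρ' f g r; exact .cLam (ih (r.keep _))
  | vLam _ ih => intro Θ' ρ' f g r; exact .vLam (ih (r.keep _))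
  | @sort Θ ρ i a X ta hi _ ih =>
    intro Θ' ρ' f g r; exact .sort ((r i (by simp [hi])).1.trans hi) (ih r)
  | prod _ ih => intro Θ' ρ' f g r; exact .prod (ih (r.keep .C).drop)

/-- Only the expressions inside logs see the variable of the enclosing log. -/
theorem Er.demote {Θ : ℕ → Kd} {ρ : ℕ → ℕ} {k : Kd} {X : Tm S} {t : Sk} (h : Er Θ ρ k X t) :
    k ≠ .Q → Er (Unit.demote Θ) ρ k X t := by
  induction h with
  | @var Θ ρ i k hi hk => intro hq; exact .var (by simp [Unit.demote, hi, hq]) hk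
  | @zero Θ ρ i hi => intro _; exact .zero (by simp [Unit.demote, hi])
  | @head Θ ρ i hi => intro _; exact .head (by simp [Unit.demote, hi])
  | spine _ ih => intro hq; exact .spine (ih hq)
  | lLam hb => intro _; exact .lLam (by rw [demote_demote]; exact hb)
  | cApp _ _ ih1 ih2 => intro _; exact .cApp (ih1 (by simp)) (ih2 (by simp))
  | vApp _ _ ih1 ih2 => intro _; exact .vApp (ih1 (by simp)) (ih2 (by simp))
  | cLam _ ih => intro _; exact .cLam (demote_push (k := .L) (by simp) _ ▸ ih (by simp))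
  | vLam _ ih => intro _; exact .vLam (demote_push (k := .C) (by simp) _ ▸ ih (by simp))
  | @sort Θ ρ i a X ta hi _ ih =>
    intro _; exact .sort (by simp [Unit.demote, hi]) (ih (by simp))
  | prod _ ih =>
    intro _
    have := ih (by simp)
    rw [demote_push (by simp), demote_push (by simp)] at this
    exact .prod this
  | _ => intro hq; exact absurd rfl hq

/-- A substitution compatible with erasure. -/
def SubEr (Θ : ℕ → Kd) (ρ : ℕ → ℕ) (Θ' : ℕ → Kd) (ρ' : ℕ → ℕ) (σ : ℕ → Tm S) (τ : ℕ → Sk) :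
    Prop :=
  ∀ i, (Θ i ∈ [Kd.K0, .G, .D] → ∃ j, σ i = .var j ∧ Θ' j = Θ i) ∧
    ((Θ i).Kept → Er Θ' ρ' (Θ i) (σ i) (τ (ρ i)))

theorem SubEr.drop {Θ Θ' : ℕ → Kd} {ρ ρ' : ℕ → ℕ} {σ : ℕ → Tm S} {τ : ℕ → Sk}
    (h : SubEr Θ ρ Θ' ρ' σ τ) : SubEr (push .H Θ) (skip ρ) (push .H Θ') (skip ρ') (ups σ) τ := by
  intro i
  cases i with
  | zero => exact ⟨fun hm => by simp [push] at hm, fun hk => hk.elim⟩
  | succ i =>
    refine ⟨fun hm => ?_, fun hk => ?_⟩
    · obtain ⟨j, e, ej⟩ := (h i).1 hm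
      exact ⟨j + 1, by simp [ups, e, Tm.ren], ej⟩
    · have := ((h i).2 hk).ren (f := Nat.succ) (g := id) (Θ' := push .H Θ') (ρ' := skip ρ')
        fun j _ => ⟨rfl, fun _ => rfl⟩
      rw [ren_id] at this
      exact this

theorem SubEr.keep {Θ Θ' : ℕ → Kd} {ρ ρ' : ℕ → ℕ} {σ : ℕ → Tm S} {τ : ℕ → Sk}
    (h : SubEr Θ ρ Θ' ρ' σ τ) {k : Kd} (hk : k.Kept) :
    SubEr (push k Θ) (upr ρ) (push k Θ') (upr ρ') (ups σ) (ups τ) := by
  intro i
  cases i with
  | zero =>
    refine ⟨fun hm => ⟨0, rfl, rfl⟩, fun _ => ?_⟩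
    exact Er.var (i := 0) rfl hk
  | succ i =>
    refine ⟨fun hm => ?_, fun hk => ?_⟩
    · obtain ⟨j, e, ej⟩ := (h i).1 hm
      exact ⟨j + 1, by simp [ups, e, Tm.ren], ej⟩
    · exact ((h i).2 hk).ren fun j _ => ⟨rfl, fun _ => rfl⟩

theorem SubEr.demote {Θ Θ' : ℕ → Kd} {ρ ρ' : ℕ → ℕ} {σ : ℕ → Tm S} {τ : ℕ → Sk}
    (h : SubEr Θ ρ Θ' ρ' σ τ) :
    SubEr (Unit.demote Θ) ρ (Unit.demote Θ') ρ' σ τ := by
  intro i
  simp only [Unit.demote]
  by_cases hq : Θ i = .Q
  · simp only [hq, if_pos]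
    exact ⟨fun hm => by simp at hm, fun hk => hk.elim⟩
  · simp only [if_neg hq]
    refine ⟨fun hm => ?_, fun hk => ((h i).2 hk).demote hq⟩
    obtain ⟨j, e, ej⟩ := (h i).1 hm
    exact ⟨j, e, by simp [ej, hq]⟩

theorem Er.sub {Θ : ℕ → Kd} {ρ : ℕ → ℕ} {k : Kd} {X : Tm S} {t : Sk} (h : Er Θ ρ k X t) :
    ∀ {Θ' : ℕ → Kd} {ρ' : ℕ → ℕ} {σ : ℕ → Tm S} {τ : ℕ → Sk}, SubEr Θ ρ Θ' ρ' σ τ →
      Er Θ' ρ' k (X.sub σ) (t.sub τ) := by
  induction h with
  | @var Θ ρ i k hi hk => intro Θ' ρ' σ τ r; subst hi; exact (r i).2 hk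
  | @zero Θ ρ i hi =>
    intro Θ' ρ' σ τ r
    obtain ⟨j, e, ej⟩ := (r i).1 (by simp [hi])
    simp only [Tm.sub, e]; exact .zero (ej.trans hi)
  | @head Θ ρ i hi =>
    intro Θ' ρ' σ τ r
    obtain ⟨j, e, ej⟩ := (r i).1 (by simp [hi])
    simp only [Tm.sub, e]; exact .head (ej.trans hi)
  | spine _ ih => intro Θ' ρ' σ τ r; exact .spine (ih r)
  | qApp _ _ ih1 ih2 => intro Θ' ρ' σ τ r; exact .qApp (ih1 r) (ih2 r)
  | qSkip _ _ ih1 ih2 => intro Θ' ρ' σ τ r; exact .qSkip (ih1 r) (ih2 r)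
  | log _ _ _ _ _ ihg ihx ihT ihb ihq =>
    intro Θ' ρ' σ τ r
    simp only [node_sub, Tm.sub]
    exact .log (ihg r) (ihx r) (ihT r) (ihb r) (ihq r)
  | logSkip _ _ ihg ihq => intro Θ' ρ' σ τ r; exact .logSkip (ihg r) (ihq r)
  | log0 _ _ _ _ ihg ihx ihb ihq =>
    intro Θ' ρ' σ τ r
    simp only [node_sub, Tm.sub]
    exact .log0 (ihg r) (ihx r) (ihb r) (ihq r)
  | log0Skip _ _ ihg ihq => intro Θ' ρ' σ τ r; exact .log0Skip (ihg r) (ihq r)
  | lLam _ ih => intro Θ' ρ' σ τ r; exact .lLam (ih (r.demote.keep trivial))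
  | cApp _ _ ih1 ih2 => intro Θ' ρ' σ τ r; exact .cApp (ih1 r) (ih2 r)
  | vApp _ _ ih1 ih2 => intro Θ' ρ' σ τ r; exact .vApp (ih1 r) (ih2 r)
  | cLam _ ih => intro Θ' ρ' σ τ r; exact .cLam (ih (r.keep trivial))
  | vLam _ ih => intro Θ' ρ' σ τ r; exact .vLam (ih (r.keep trivial))
  | @sort Θ ρ i a X ta hi _ ih =>
    intro Θ' ρ' σ τ r
    obtain ⟨j, e, ej⟩ := (r i).1 (by simp [hi])
    simp only [Tm.sub, e]; exact .sort (ej.trans hi) (ih r)
  | prod _ ih =>
    intro Θ' ρ' σ τ r; exact .prod (ih (r.keep (k := .C) trivial).drop)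

/-- A log applied to an expression may be skipped after contraction. -/
theorem Er.tail {Θ : ℕ → Kd} {ρ : ℕ → ℕ} {k : Kd} {X : Tm S} {t : Sk} (h : Er Θ ρ k X t) :
    k = .Q → ∀ {Θ' : ℕ → Kd} {ρ' : ℕ → ℕ} {σ : ℕ → Tm S} {τ : ℕ → Sk} {tg : Sk},
      SubEr Θ ρ Θ' ρ' σ τ → (∀ i, Θ i = .Q → Er Θ' ρ' .Q (σ i) tg) →
      Er Θ' ρ' .Q (X.sub σ) tg := by
  induction h with
  | var hi => intro hk Θ' ρ' σ τ tg _ hq; subst hk; exact hq _ hi
  | qApp hf _ _ ih2 => intro hk Θ' ρ' σ τ tg r hq; exact .qSkip (hf.sub r) (ih2 rfl r hq)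
  | qSkip hf _ _ ih2 => intro hk Θ' ρ' σ τ tg r hq; exact .qSkip (hf.sub r) (ih2 rfl r hq)
  | log hg _ _ _ _ _ _ _ _ ihq =>
    intro hk Θ' ρ' σ τ tg r hq
    have := hg.sub r
    exact .logSkip this (ihq rfl r hq)
  | logSkip hg _ _ ihq => intro hk Θ' ρ' σ τ tg r hq; exact .logSkip (hg.sub r) (ihq rfl r hq)
  | log0 hg _ _ _ _ _ _ ihq =>
    intro hk Θ' ρ' σ τ tg r hq; exact .log0Skip (hg.sub r) (ihq rfl r hq)
  | log0Skip hg _ _ ihq => intro hk Θ' ρ' σ τ tg r hq; exact .log0Skip (hg.sub r) (ihq rfl r hq)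
  | _ => intro hk; cases hk

theorem SubEr.instKept {Θ : ℕ → Kd} {ρ : ℕ → ℕ} {k : Kd} (hk : k.Kept) {a : Tm S} {ta : Sk}
    (h : Er Θ ρ k a ta) : SubEr (push k Θ) (upr ρ) Θ ρ (inst a) (inst ta) := by
  intro i
  cases i with
  | zero => exact ⟨fun hm => by cases k <;> simp_all [push, Kd.Kept], fun _ => h⟩
  | succ i => exact ⟨fun _ => ⟨i, rfl, rfl⟩, fun hk => Er.var rfl hk⟩

theorem SubEr.instLog {Θ : ℕ → Kd} {ρ : ℕ → ℕ} {a : Tm S} {ta : Sk} (h : Er Θ ρ .Q a ta) :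
    SubEr (push .Q (Unit.demote Θ)) (upr ρ) Θ ρ (inst a) (inst ta) := by
  intro i
  cases i with
  | zero => exact ⟨fun hm => by simp [push] at hm, fun _ => h⟩
  | succ i =>
    simp only [push, Unit.demote]
    by_cases hq : Θ i = .Q
    · simp only [hq, if_pos]; exact ⟨fun hm => by simp at hm, fun hk => hk.elim⟩
    · simp only [if_neg hq]; exact ⟨fun _ => ⟨i, rfl, rfl⟩, fun hk => Er.var rfl hk⟩

theorem Er.head_star {Θ : ℕ → Kd} {ρ : ℕ → ℕ} {X : Tm S} {t : Sk}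
    (h : Er Θ ρ .G X t) : t = star ∧ ∀ A b, X ≠ .lam A b := by
  cases h with
  | var _ hk => exact hk.elim
  | head => exact ⟨rfl, fun A b e => by cases e⟩
  | spine => exact ⟨rfl, fun A b e => by cases e⟩

/-- Every step is followed by the erasure. -/
theorem Er.step {Θ : ℕ → Kd} {ρ : ℕ → ℕ} {k : Kd} {X : Tm S} {t : Sk} (h : Er Θ ρ k X t) :
    ∀ {Y : Tm S}, Step X Y → ∃ t', Steps t t' ∧ Er Θ ρ k Y t' := by
  induction h with
  | var => intro Y s; cases s
  | zero => intro Y s; cases s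
  | head => intro Y s; cases s
  | @spine Θ ρ f a hf ih =>
    intro Y s
    generalize hf' : f = f0 at s
    cases s with
    | beta A b a => exact absurd hf' (hf.head_star.2 _ _)
    | app₁ _ s =>
      subst hf'
      obtain ⟨t', _, h'⟩ := ih s
      obtain rfl := h'.head_star.1
      exact ⟨star, .refl, .spine h'⟩
    | app₂ _ s => subst hf'; exact ⟨star, .refl, .spine hf⟩
  | @qApp Θ ρ f a tf ta hf ha ihf iha =>
    intro Y s
    cases s with
    | beta A b _ =>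
      cases hf with
      | lLam hb => exact ⟨_, .single (.beta _ _ _), hb.sub (SubEr.instLog ha)⟩
    | app₁ _ s => obtain ⟨t', st, h'⟩ := ihf s; exact ⟨_, st.app₁ _, .qApp h' ha⟩
    | app₂ _ s => obtain ⟨t', st, h'⟩ := iha s; exact ⟨_, st.app₂ _, .qApp hf h'⟩
  | @qSkip Θ ρ f a tf ta hf ha ihf iha =>
    intro Y s
    cases s with
    | beta A b _ =>
      cases hf with
      | lLam hb =>
        refine ⟨_, .refl, hb.tail rfl (SubEr.instLog ha) fun i hi => ?_⟩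
        cases i with
        | zero => exact ha
        | succ i =>
          exfalso
          simp only [push, Unit.demote] at hi
          split_ifs at hi with h1
          exact h1 hi
    | app₁ _ s => obtain ⟨t', st, h'⟩ := ihf s; exact ⟨_, .refl, .qSkip h' ha⟩
    | app₂ _ s => obtain ⟨t', st, h'⟩ := iha s; exact ⟨_, st, .qSkip hf h'⟩
  | @log Θ ρ g x T e b q tx tT tb tq hg hx hT hb hq ihg ihx ihT ihb ihq =>
    intro Y s
    cases s with
    | app₂ _ s =>
      obtain ⟨t', st, h'⟩ := ihq s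
      exact ⟨_, node_steps .refl (node_steps .refl (node_steps .refl st)), .log hg hx hT hb h'⟩
    | app₁ _ s =>
      cases s with
      | app₂ _ s =>
        obtain ⟨t', st, h'⟩ := ihb s
        exact ⟨_, node_steps .refl (node_steps .refl (node_steps st .refl)), .log hg hx hT h' hq⟩
      | app₁ _ s =>
        cases s with
        | app₂ _ s =>
          cases s with
          | lam₁ _ s =>
            obtain ⟨t', st, h'⟩ := ihT s
            exact ⟨_, node_steps st .refl, .log hg hx h' hb hq⟩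
          | lam₂ _ s => exact ⟨_, .refl, .log hg hx hT hb hq⟩
        | app₁ _ s =>
          generalize hg' : g = g0 at s
          cases s with
          | beta A c d => exact absurd hg' (hg.head_star.2 _ _)
          | app₁ _ s =>
            subst hg'
            obtain ⟨t', _, h'⟩ := ihg s
            obtain rfl := h'.head_star.1
            exact ⟨_, .refl, .log h' hx hT hb hq⟩
          | app₂ _ s =>
            subst hg'
            obtain ⟨t', st, h'⟩ := ihx s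
            exact ⟨_, node_steps .refl (node_steps st .refl), .log hg h' hT hb hq⟩
  | @logSkip Θ ρ g x T e b q tq hg hq ihg ihq =>
    intro Y s
    cases s with
    | app₂ _ s => obtain ⟨t', st, h'⟩ := ihq s; exact ⟨_, st, .logSkip hg h'⟩
    | app₁ _ s =>
      cases s with
      | app₂ _ s => exact ⟨_, .refl, .logSkip hg hq⟩
      | app₁ _ s =>
        cases s with
        | app₂ _ s =>
          cases s with
          | lam₁ _ s => exact ⟨_, .refl, .logSkip hg hq⟩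
          | lam₂ _ s => exact ⟨_, .refl, .logSkip hg hq⟩
        | app₁ _ s =>
          generalize hg' : g = g0 at s
          cases s with
          | beta A c d => exact absurd hg' (hg.head_star.2 _ _)
          | app₁ _ s =>
            subst hg'
            obtain ⟨t', _, h'⟩ := ihg s
            obtain rfl := h'.head_star.1
            exact ⟨_, .refl, .logSkip h' hq⟩
          | app₂ _ s => subst hg'; exact ⟨_, .refl, .logSkip hg hq⟩
  | @log0 Θ ρ g x b q tx tb tq hg hx hb hq ihg ihx ihb ihq =>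
    intro Y s
    cases s with
    | app₂ _ s =>
      obtain ⟨t', st, h'⟩ := ihq s
      exact ⟨_, node_steps .refl (node_steps .refl st), .log0 hg hx hb h'⟩
    | app₁ _ s =>
      cases s with
      | app₂ _ s =>
        obtain ⟨t', st, h'⟩ := ihb s
        exact ⟨_, node_steps .refl (node_steps st .refl), .log0 hg hx h' hq⟩
      | app₁ _ s =>
        generalize hg' : g = g0 at s
        cases s with
        | beta A c d => exact absurd hg' (hg.head_star.2 _ _)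
        | app₁ _ s =>
          subst hg'
          obtain ⟨t', _, h'⟩ := ihg s
          obtain rfl := h'.head_star.1
          exact ⟨_, .refl, .log0 h' hx hb hq⟩
        | app₂ _ s =>
          subst hg'
          obtain ⟨t', st, h'⟩ := ihx s
          exact ⟨_, node_steps st .refl, .log0 hg h' hb hq⟩
  | @log0Skip Θ ρ g x b q tq hg hq ihg ihq =>
    intro Y s
    cases s with
    | app₂ _ s => obtain ⟨t', st, h'⟩ := ihq s; exact ⟨_, st, .log0Skip hg h'⟩
    | app₁ _ s =>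
      cases s with
      | app₂ _ s => exact ⟨_, .refl, .log0Skip hg hq⟩
      | app₁ _ s =>
        generalize hg' : g = g0 at s
        cases s with
        | beta A c d => exact absurd hg' (hg.head_star.2 _ _)
        | app₁ _ s =>
          subst hg'
          obtain ⟨t', _, h'⟩ := ihg s
          obtain rfl := h'.head_star.1
          exact ⟨_, .refl, .log0Skip h' hq⟩
        | app₂ _ s => subst hg'; exact ⟨_, .refl, .log0Skip hg hq⟩
  | lLam hb ih =>
    intro Y s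
    cases s with
    | lam₁ _ s => exact ⟨_, .refl, .lLam hb⟩
    | lam₂ _ s => obtain ⟨t', st, h'⟩ := ih s; exact ⟨_, st.lam₂ _, .lLam h'⟩
  | @cApp Θ ρ f a tf ta hf ha ihf iha =>
    intro Y s
    cases s with
    | beta A b _ =>
      cases hf with
      | cLam hb => exact ⟨_, .single (.beta _ _ _), hb.sub (SubEr.instKept (by trivial) ha)⟩
    | app₁ _ s => obtain ⟨t', st, h'⟩ := ihf s; exact ⟨_, st.app₁ _, .cApp h' ha⟩
    | app₂ _ s => obtain ⟨t', st, h'⟩ := iha s; exact ⟨_, st.app₂ _, .cApp hf h'⟩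
  | @vApp Θ ρ f a tf ta hf ha ihf iha =>
    intro Y s
    cases s with
    | beta A b _ =>
      cases hf with
      | vLam hb => exact ⟨_, .single (.beta _ _ _), hb.sub (SubEr.instKept (by trivial) ha)⟩
    | app₁ _ s => obtain ⟨t', st, h'⟩ := ihf s; exact ⟨_, st.app₁ _, .vApp h' ha⟩
    | app₂ _ s => obtain ⟨t', st, h'⟩ := iha s; exact ⟨_, st.app₂ _, .vApp hf h'⟩
  | cLam hb ih =>
    intro Y s
    cases s with
    | lam₁ _ s => exact ⟨_, .refl, .cLam hb⟩
    | lam₂ _ s => obtain ⟨t', st, h'⟩ := ih s; exact ⟨_, st.lam₂ _, .cLam h'⟩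
  | vLam hb ih =>
    intro Y s
    cases s with
    | lam₁ _ s => exact ⟨_, .refl, .vLam hb⟩
    | lam₂ _ s => obtain ⟨t', st, h'⟩ := ih s; exact ⟨_, st.lam₂ _, .vLam h'⟩
  | @sort Θ ρ i a X ta hi ha ih =>
    intro Y s
    cases s with
    | pi₁ _ s =>
      cases s with
      | app₁ _ s => cases s
      | app₂ _ s => obtain ⟨t', st, h'⟩ := ih s; exact ⟨_, st.pi₁ _, .sort hi h'⟩
    | pi₂ _ s => exact ⟨_, .refl, .sort hi ha⟩
  | @prod Θ ρ A₁ A₂ B tB hB ihB =>
    intro Y s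
    cases s with
    | pi₁ _ s => exact ⟨_, .refl, .prod hB⟩
    | pi₂ _ s =>
      cases s with
      | pi₁ _ s => exact ⟨_, .refl, .prod hB⟩
      | pi₂ _ s => obtain ⟨t', st, h'⟩ := ihB s; exact ⟨_, st.pi₂ _, .prod h'⟩

/-- No step is possible. -/
abbrev Nf {α : Type _} (r : α → α → Prop) (a : α) : Prop := ∀ b, ¬ r a b

theorem step_ren_inv {R : Type u} (t : Tm R) : ∀ {f : ℕ → ℕ} {v : Tm R}, Step (t.ren f) v →
    ∃ t', Step t t' := by
  induction t with
  | var i => intro f v s; cases s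
  | srt c => intro f v s; cases s
  | app a b iha ihb =>
    intro f v s
    generalize ht : (Tm.app a b).ren f = y at s
    cases s with
    | beta A c d =>
      simp only [Tm.ren, Tm.app.injEq] at ht
      cases a with
      | lam A0 b0 => exact ⟨_, .beta _ _ _⟩
      | _ => simp [Tm.ren] at ht
    | app₁ _ s =>
      simp only [Tm.ren, Tm.app.injEq] at ht; obtain ⟨rfl, -⟩ := ht
      obtain ⟨t', h⟩ := iha s; exact ⟨_, .app₁ _ h⟩
    | app₂ _ s =>
      simp only [Tm.ren, Tm.app.injEq] at ht; obtain ⟨-, rfl⟩ := ht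
      obtain ⟨t', h⟩ := ihb s; exact ⟨_, .app₂ _ h⟩
    | _ => simp [Tm.ren] at ht
  | lam a b iha ihb =>
    intro f v s
    cases s with
    | lam₁ _ s => obtain ⟨t', h⟩ := iha s; exact ⟨_, .lam₁ _ h⟩
    | lam₂ _ s => obtain ⟨t', h⟩ := ihb s; exact ⟨_, .lam₂ _ h⟩
  | pi a b iha ihb =>
    intro f v s
    cases s with
    | pi₁ _ s => obtain ⟨t', h⟩ := iha s; exact ⟨_, .pi₁ _ h⟩
    | pi₂ _ s => obtain ⟨t', h⟩ := ihb s; exact ⟨_, .pi₂ _ h⟩

theorem node_nf {a b : Sk} (ha : Nf Step a) (hb : Nf Step b) : Nf Step (node a b) := by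
  intro v s
  cases s with
  | pi₁ _ s => exact ha _ s
  | pi₂ _ s => obtain ⟨t', h⟩ := step_ren_inv b s; exact hb _ h

/-- Erasure exposes an abstraction only at abstractions. -/
theorem Er.lam_of_lam {Θ : ℕ → Kd} {ρ : ℕ → ℕ} {k : Kd} {X : Tm S} {t : Sk}
    (h : Er Θ ρ k X t) : ∀ c d, t = .lam c d → k ≠ .Q ∧ ∃ A b, X = .lam A b := by
  induction h with
  | qSkip _ _ _ ih => intro c d e; exact absurd rfl (ih c d e).1
  | logSkip _ _ _ ih => intro c d e; exact absurd rfl (ih c d e).1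
  | log0Skip _ _ _ ih => intro c d e; exact absurd rfl (ih c d e).1
  | lLam => intro c d e; exact ⟨by simp, _, _, rfl⟩
  | cLam => intro c d e; exact ⟨by simp, _, _, rfl⟩
  | vLam => intro c d e; exact ⟨by simp, _, _, rfl⟩
  | _ => intro c d e; simp [node] at e

theorem nf_app {f a : Tm S} (n : Nf Step (.app f a)) {tf ta : Sk}
    (hlam : ∀ c d, tf = .lam c d → ∃ A b, f = .lam A b) (hf : Nf Step f → Nf Step tf)
    (ha : Nf Step a → Nf Step ta) : Nf Step (Tm.app tf ta) := by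
  intro v s
  cases s with
  | beta A b d =>
    obtain ⟨A', b', rfl⟩ := hlam _ _ rfl
    exact n _ (.beta _ _ _)
  | app₁ _ s => exact hf (fun _ s => n _ (.app₁ _ s)) _ s
  | app₂ _ s => exact ha (fun _ s => n _ (.app₂ _ s)) _ s

theorem nf_lam {A b : Tm S} (n : Nf Step (.lam A b)) {tb : Sk} (hb : Nf Step b → Nf Step tb) :
    Nf Step (Tm.lam star tb) := by
  intro v s
  cases s with
  | lam₁ _ s => cases s
  | lam₂ _ s => exact hb (fun _ s => n _ (.lam₂ _ s)) _ s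

/-- Normal expressions erase to normal skeletons. -/
theorem Er.nf {Θ : ℕ → Kd} {ρ : ℕ → ℕ} {k : Kd} {X : Tm S} {t : Sk}
    (h : Er Θ ρ k X t) : Nf Step X → Nf Step t := by
  induction h with
  | qApp hf _ ihf iha => intro n; exact nf_app n (fun c d e => (hf.lam_of_lam c d e).2) ihf iha
  | cApp hf _ ihf iha => intro n; exact nf_app n (fun c d e => (hf.lam_of_lam c d e).2) ihf iha
  | vApp hf _ ihf iha => intro n; exact nf_app n (fun c d e => (hf.lam_of_lam c d e).2) ihf iha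
  | qSkip _ _ _ ih => intro n; exact ih fun _ s => n _ (.app₂ _ s)
  | logSkip _ _ _ ih => intro n; exact ih fun _ s => n _ (.app₂ _ s)
  | log0Skip _ _ _ ih => intro n; exact ih fun _ s => n _ (.app₂ _ s)
  | log _ _ _ _ _ _ ihx ihT ihb ihq =>
    intro n
    refine node_nf (ihT fun _ s => n _ (.app₁ _ (.app₁ _ (.app₂ _ (.lam₁ _ s))))) (node_nf
      (ihx fun _ s => n _ (.app₁ _ (.app₁ _ (.app₁ _ (.app₂ _ s))))) (node_nf
      (ihb fun _ s => n _ (.app₁ _ (.app₂ _ s))) (ihq fun _ s => n _ (.app₂ _ s))))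
  | log0 _ _ _ _ _ ihx ihb ihq =>
    intro n
    exact node_nf (ihx fun _ s => n _ (.app₁ _ (.app₁ _ (.app₂ _ s)))) (node_nf
      (ihb fun _ s => n _ (.app₁ _ (.app₂ _ s))) (ihq fun _ s => n _ (.app₂ _ s)))
  | lLam _ ih => intro n; exact nf_lam n ih
  | cLam _ ih => intro n; exact nf_lam n ih
  | vLam _ ih => intro n; exact nf_lam n ih
  | sort _ _ ih =>
    intro n v s
    cases s with
    | pi₁ _ s => exact ih (fun _ s => n _ (.pi₁ _ (.app₂ _ s))) _ s
    | pi₂ _ s => cases s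
  | prod _ ihB =>
    intro n v s
    cases s with
    | pi₁ _ s => cases s
    | pi₂ _ s => exact ihB (fun _ s => n _ (.pi₂ _ (.pi₂ _ s))) _ s
  | _ => intro n v s; cases s

/-- Erasure carries weak normalisation to skeletons. -/
theorem Er.normal {Θ : ℕ → Kd} {ρ : ℕ → ℕ} {k : Kd} {X : Tm S} {t : Sk}
    (h : Er Θ ρ k X t) (hX : HasNormalForm X) : HasNormalForm t := by
  obtain ⟨N, hN, hn⟩ := hX
  suffices ∃ t', Steps t t' ∧ Er Θ ρ k N t' by
    obtain ⟨t', st, h'⟩ := this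
    exact ⟨t', st, h'.nf hn⟩
  clear hn
  induction hN with
  | refl => exact ⟨t, .refl, h⟩
  | tail _ s ih =>
    obtain ⟨t1, st, h1⟩ := ih
    obtain ⟨t2, st2, h2⟩ := h1.step s
    exact ⟨t2, st.trans st2, h2⟩

end Vale.Agent.P340.Unit
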