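import Vale.Agent.P340.Unit.Scope
import Vale.Agent.P340.Unit.Kind

/-!
The logs of abstractions and products: new families applied to all local variables.
-/

namespace Vale.Agent.P340.Unit

open Vale.Agent.P340.Hub

universe u

variable {S : Type u} {Ax : S → S → Prop} {Ru : S → S → S → Prop} {o : S}

/-- Close a type over declarations. -/
def close : List (Tm S) → Tm S → Tm S
  | [], T => T
  | E :: Es, T => close Es (.pi E T)

/-- Apply an expression to variables. -/
def apps (F : Tm S) : (ℕ → ℕ) → ℕ → Tm S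
  | _, 0 => F
  | f, k + 1 => .app (apps F (f ∘ Nat.succ) k) (.var (f 0))

theorem close_typed {T : S → Prop} (hT : ∀ s t, T t → ∃ t', T t' ∧ Ru s t t')
    {Δ : List (Tm S)} : ∀ (Es : List (Tm S)) (X : Tm S) (t : S), T t →
      Typed Ax Ru (Es ++ Δ) X (.srt t) → ∃ t', Typed Ax Ru Δ (close Es X) (.srt t')
  | [], _, t, _, h => ⟨t, h⟩
  | _ :: Es, _, t, ht, h => by
    cases h.wf with
    | @cons _ _ sE _ hE =>
      obtain ⟨t', ht', hr⟩ := hT sE t ht
      exact close_typed hT Es _ t' ht' (.prod hE h hr)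

theorem apps_typed {Δ Γ' : List (Tm S)} (w : Wf Ax Ru Γ') :
    ∀ (Es : List (Tm S)) (T F : Tm S) (f : ℕ → ℕ), RenOK (Es ++ Δ) Γ' f →
      Typed Ax Ru Γ' F ((close Es T).ren (fun i => f (Es.length + i))) →
      Typed Ax Ru Γ' (apps F f Es.length) (T.ren f) := by
  intro Es
  induction Es with
  | nil => intro T F f _ h; simpa [close, apps] using h
  | cons E Es ih =>
    intro T F f hf h
    have h1 : Typed Ax Ru Γ' (apps F (f ∘ Nat.succ) Es.length)
        ((Tm.pi E T).ren (f ∘ Nat.succ)) := by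
      refine ih _ _ _ hf.tail ?_
      have e : (fun i => (f ∘ Nat.succ) (Es.length + i)) = fun i => f ((E :: Es).length + i) := by
        funext i; exact congrArg f (by simp; omega)
      rw [e]; exact h
    have h2 : Typed Ax Ru Γ' (.var (f 0)) (E.ren (f ∘ Nat.succ)) := by
      have := (hf _ _ (.zero (Γ := Es ++ Δ) (A := E))).typed w
      rwa [ren_ren] at this
    have e : (T.ren (upr (f ∘ Nat.succ))).sub (inst (.var (f 0))) = T.ren f := by
      rw [sub_ren, ren_eq_sub T f]; congr 1; funext i; cases i <;> rfl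
    exact e ▸ Hub.Typed.app h1 h2

theorem apps_er {Θ : ℕ → Kd} {ρ : ℕ → ℕ} {F : Tm S} (h : Er Θ ρ .G F star) :
    ∀ (k : ℕ) (f : ℕ → ℕ), Er Θ ρ .G (apps F f k) star
  | 0, _ => h
  | k + 1, _ => .spine (apps_er h k _)

theorem Conv.subArg (t : Tm S) : ∀ {σ τ : ℕ → Tm S}, (∀ i, Conv (σ i) (τ i)) →
    Conv (t.sub σ) (t.sub τ) := by
  have up : ∀ {σ τ : ℕ → Tm S}, (∀ i, Conv (σ i) (τ i)) → ∀ i, Conv (ups σ i) (ups τ i) := by
    intro σ τ h i
    cases i with
    | zero => exact .refl _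
    | succ i => exact Conv.ren (h i) _
  induction t with
  | var i => intro σ τ h; exact h i
  | srt s => intros; exact .refl _
  | app a b iha ihb => intro σ τ h; exact Conv.app (iha h) (ihb h)
  | lam a b iha ihb => intro σ τ h; exact Conv.lam (iha h) (ihb (up h))
  | pi a b iha ihb => intro σ τ h; exact Conv.pi (iha h) (ihb (up h))

theorem fix_inst (m : ℕ) (a : Tm S) : Fix (inst a) (m + 1) m := fun j => by
  rw [show m + 1 + j = m + j + 1 by omega]; rfl

theorem Based.chainT {Δ : List (Tm S)} {m : ℕ} {F a b q P : Tm S}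
    (hF : Typed Ax Ru Δ F (.pi P (.pi (oV (m + 1)) (.pi (qV (m + 2)) (qV (m + 3))))))
    (ha : Typed Ax Ru Δ a P) (hb : Typed Ax Ru Δ b (oV m)) (hq : Typed Ax Ru Δ q (qV m)) :
    Typed Ax Ru Δ (.app (.app (.app F a) b) q) (qV m) := by
  have h1 := Hub.Typed.app hF ha
  simp only [Tm.sub, oV_sub (fix_inst m a), qV_sub (fix_inst m a).up,
    qV_sub (fix_inst m a).up.up] at h1
  have h2 := Hub.Typed.app h1 hb
  simp only [Tm.sub, qV_sub (fix_inst m b), qV_sub (fix_inst m b).up] at h2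
  have h3 := Hub.Typed.app h2 hq
  rwa [qV_sub (fix_inst m q)] at h3

theorem Based.logApp {Δ : List (Tm S)} {m : ℕ} {f a : Tm S}
    (hf : Typed Ax Ru Δ f (oV m)) (ha : Typed Ax Ru Δ a (qV m)) :
    Typed Ax Ru Δ (.app f a) (qV m) := by
  have h := Hub.Typed.app hf ha
  rwa [inst_succ] at h

/-- The classes of the target variables. -/
def Theta (n r i : ℕ) : Kd :=
  if i < n then .C
  else if i < n + r then .G
  else if i = n + r then .K0
  else if i = n + r + 1 then .G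
  else if i = n + r + 2 then .D
  else .H

theorem Theta_ne_Q (n r i : ℕ) : Theta n r i ≠ .Q := by
  simp only [Theta]; split_ifs <;> simp

theorem Theta_succ (n r i : ℕ) : Theta (n + 1) r (i + 1) = Theta n r i := by
  simp only [Theta]; split_ifs <;> first | rfl | omega

theorem Theta_C (n r : ℕ) : Theta (n + 1) r 0 = .C := by simp [Theta]

theorem Theta_G (n r : ℕ) : Theta n (r + 1) n = .G := by simp [Theta]

theorem Theta_w0 (n r : ℕ) : Theta n r (n + r) = .K0 := by simp [Theta]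

theorem Theta_g0 (n r : ℕ) : Theta n r (n + r + 1) = .G := by
  simp only [Theta]; split_ifs <;> first | rfl | omega

theorem Theta_D (n r : ℕ) : Theta n r (n + r + 2) = .D := by
  simp only [Theta]; split_ifs <;> first | rfl | omega

theorem Theta_lift (n r e i : ℕ) :
    (Theta n r i ≠ .H → Theta n (e + r) (lift n e i) = Theta n r i) ∧
      ((Theta n r i).Kept → lift n e i = i) := by
  constructor
  · intro hi
    simp only [Theta, lift] at hi ⊢; split_ifs at hi ⊢ <;> first | rfl | omega | exact absurd rfl hi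
  · intro hk
    have : i < n := by
      by_contra c
      simp only [Theta, if_neg c] at hk
      split_ifs at hk <;> exact hk
    simp [lift, this]

/-- The target constant under one more variable. -/
def sig (m : ℕ) : Tm S := konst (m + 1) (.var 0)

/-- The translation of a judgment in one target context. -/
def OutP (Ax : S → S → Prop) (Ru : S → S → S → Prop) (o : S) (R Γ : List (Tm S)) (M A : Tm S) :
    Prop :=
  ∃ (X : Tm S) (d : De S .tm),
    Typed Ax Ru (oV (off R Γ) :: ctx o R Γ) X ((el (off R Γ) A).ren Nat.succ) ∧ d.strip = M ∧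
    Er (push .L (Theta Γ.length R.length)) id .V X (skel Nat.succ d (.var 0)) ∧
    Conv ((X.ren (upr Nat.succ)).sub (inst (sig (off R Γ))))
      (tr (off R Γ + 1) Nat.succ (.var 0) M).1

/-- The translation of a judgment as a type. -/
def OutE (Ax : S → S → Prop) (Ru : S → S → S → Prop) (o : S) (R Γ : List (Tm S)) (M : Tm S)
    (s : S) : Prop :=
  ∃ (X : Tm S) (d : De S .ty),
    Typed Ax Ru (oV (off R Γ) :: ctx o R Γ) X (.srt s) ∧ d.strip = M ∧
    Er (push .L (Theta Γ.length R.length)) id .V X (skel Nat.succ d (.var 0)) ∧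
    Conv ((X.ren (upr Nat.succ)).sub (inst (sig (off R Γ))))
      (tr (off R Γ + 1) Nat.succ (.var 0) M).2

/-- The type of the value in a log, at the level `m`. -/
def zTy (m : ℕ) (A : Tm S) : Tm S := ctyp (m + 1) (tr (m + 1) Nat.succ (q0V (m + 1)) A).2

/-- The context of a log. -/
def logCtx (o : S) (R Γ : List (Tm S)) (A : Tm S) : List (Tm S) :=
  oV (off R Γ + 2) :: zTy (off R Γ) A :: oV (off R Γ) :: ctx o R Γ

/-- A log. -/
def logTerm (m : ℕ) (Hd : Tm S) (bi : ℕ) : Tm S :=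
  .lam (qV (m + 3)) (.app (.var 3) (.app (.app Hd (.var (bi + 1))) (.var 0)))

theorem logTerm_conv {m m' : ℕ} {τ : ℕ → Tm S} {c : Tm S} (h : Fix τ (m + 3) m')
    (h2 : τ 2 = konst m' c) (Hd : Tm S) (bi : ℕ) :
    Conv ((logTerm m Hd bi).sub τ) (konst m' c) := by
  simp only [logTerm, Tm.sub, qV_sub h]
  refine Conv.lam (.refl _) ?_
  show Conv (.app ((τ 2).ren Nat.succ) _) _
  rw [h2, konst_ren (RFix.succ m')]
  exact .rel _ _ (konst_app _ _ _)

theorem UnitAt.tyA (H : UnitAt Ax Ru o) {R Γ : List (Tm S)} (wR : Wf Ax Ru (R ++ baseCtx o))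
    {A : Tm S} {s : S} (hA : DTyped Ax Ru Γ A (.srt s)) :
    Based Ax Ru o (oV (off R Γ) :: ctx o R Γ) (off R Γ + 1) ∧
      Typed Ax Ru (oV (off R Γ) :: ctx o R Γ) (zTy (off R Γ) A) (.srt s) := by
  obtain ⟨w, -, hE, -⟩ := H.pure hA R wR
  have b := (ctx_based H w).bo H
  exact ⟨b, .prod (b.oT H) (Typed.weakSort (hE s rfl _ Nat.succ _ _ (RenOK.succ _ _)
    (RFix.succ _) b b.q0T) (b.oT H)) (H.inn s)⟩

theorem UnitAt.log_based (H : UnitAt Ax Ru o) {R Γ : List (Tm S)}
    (wR : Wf Ax Ru (R ++ baseCtx o)) {A : Tm S} {s : S} (hA : DTyped Ax Ru Γ A (.srt s)) :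
    Based Ax Ru o (logCtx o R Γ A) (off R Γ + 3) := by
  obtain ⟨b, hz⟩ := H.tyA wR hA
  exact (b.cons hz).bo H

theorem UnitAt.logTermT (H : UnitAt Ax Ru o) {R Γ : List (Tm S)} {A : Tm S}
    (b : Based Ax Ru o (logCtx o R Γ A) (off R Γ + 3)) {Hd : Tm S}
    (hd : Typed Ax Ru (qV (off R Γ + 3) :: logCtx o R Γ A) Hd
      (.pi (oV (off R Γ + 4)) (.pi (qV (off R Γ + 5)) (qV (off R Γ + 6)))))
    {bi : ℕ} (hb : Look (logCtx o R Γ A) bi (oV (off R Γ + 3))) :
    Typed Ax Ru (logCtx o R Γ A) (logTerm (off R Γ) Hd bi) (oV (off R Γ + 3)) := by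
  have b' := b.cons b.qT
  refine .abs (s := o) ?_ (b.oT H)
  have hb' := (Look.succ (A := qV (off R Γ + 3)) hb).typed b'.wf
  rw [oV_ren (RFix.succ _)] at hb'
  have h1 := Hub.Typed.app hd hb'
  simp only [Tm.sub, qV_sub (fix_inst (off R Γ + 4) _), qV_sub (fix_inst (off R Γ + 4) _).up] at h1
  have h0 := (Look.zero (Γ := logCtx o R Γ A) (A := qV (off R Γ + 3))).typed b'.wf
  rw [qV_ren (RFix.succ _)] at h0
  have h2 := Hub.Typed.app h1 h0
  rw [qV_sub (fix_inst (off R Γ + 4) _)] at h2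
  have hl : Look (logCtx o R Γ A) 2 (oV (off R Γ + 3)) := by
    have := Look.succ (A := oV (off R Γ + 2)) (Look.succ (A := zTy (off R Γ) A)
      (Look.zero (Γ := ctx o R Γ) (A := oV (off R Γ))))
    rwa [oV_ren (RFix.succ _), oV_ren (RFix.succ _), oV_ren (RFix.succ _)] at this
  have hl' := (Look.succ (A := qV (off R Γ + 3)) hl).typed b'.wf
  rw [oV_ren (RFix.succ _)] at hl'
  have h3 := Based.logApp hl' h2
  rw [qV_ren (RFix.succ _)]
  exact h3

/-- A new family gives the logs of a binder with domain `A`. -/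
theorem UnitAt.logT (H : UnitAt Ax Ru o) {R Γ : List (Tm S)} {A : Tm S} {s : S}
    (hA : DTyped Ax Ru Γ A (.srt s)) (wR : Wf Ax Ru (R ++ baseCtx o))
    (oA : OutE Ax Ru o R Γ A s) :
    ∃ GT, Wf Ax Ru ((GT :: R) ++ baseCtx o) ∧ ∃ (Hd : Tm S) (dA : De S .ty), dA.strip = A ∧
      Typed Ax Ru (qV (off (GT :: R) Γ + 3) :: logCtx o (GT :: R) Γ A) Hd
        (.pi (oV (off (GT :: R) Γ + 4))
          (.pi (qV (off (GT :: R) Γ + 5)) (qV (off (GT :: R) Γ + 6)))) ∧
      ∀ (Θ2 : ℕ → Kd) (ρ2 : ℕ → ℕ) (bi : ℕ), Θ2 1 = .C → Θ2 2 = .L → Θ2 bi = .L →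
        (∀ i, Θ2 (i + 3) = Theta Γ.length (R.length + 1) i) →
        Er Θ2 ρ2 .L (logTerm (off (GT :: R) Γ) Hd bi)
          (logOf (.var (ρ2 2)) (skel (fun i => ρ2 (i + 3)) dA (.var (ρ2 2))) (.var (ρ2 1))
            (.var (ρ2 bi))) := by
  obtain ⟨XA, dA, hXA, edA, eXA, -⟩ := oA
  obtain ⟨b, hz⟩ := H.tyA wR hA
  have b1 := b.cons hz
  obtain ⟨T, hTo, hT⟩ := H.closed
  obtain ⟨t₁, -, r₁⟩ := hT s o hTo
  obtain ⟨t₂, ht₂, r₂⟩ := hT t₁ o hTo
  have hTA := Typed.weakSort hXA hz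
  have h1 : Typed Ax Ru (zTy (off R Γ) A :: oV (off R Γ) :: ctx o R Γ)
      (.pi (XA.ren Nat.succ) (qV (off R Γ + 3))) (.srt t₁) := by
    refine .prod hTA ?_ r₁
    exact (b1.cons hTA).qT
  have b1' := b1.cons h1
  have b2' := b1'.cons (b1'.oT H)
  have h2 : Typed Ax Ru (zTy (off R Γ) A :: oV (off R Γ) :: ctx o R Γ)
      (.pi (.pi (XA.ren Nat.succ) (qV (off R Γ + 3)))
        (.pi (oV (off R Γ + 3)) (.pi (qV (off R Γ + 4)) (qV (off R Γ + 5))))) (.srt t₂) :=
    .prod h1 (.prod (b1'.oT H) (.prod b2'.qT (b2'.cons b2'.qT).qT (H.inn o)) (H.inn o)) r₂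
  obtain ⟨GT, hGTdef⟩ : ∃ GT, close (zTy (off R Γ) A :: oV (off R Γ) :: c1 R.length Γ)
      (.pi (.pi (XA.ren Nat.succ) (qV (off R Γ + 3)))
        (.pi (oV (off R Γ + 3)) (.pi (qV (off R Γ + 4)) (qV (off R Γ + 5))))) = GT := ⟨_, rfl⟩
  obtain ⟨t₅, hGT⟩ : ∃ t, Typed Ax Ru (R ++ baseCtx o) GT (.srt t) :=
    hGTdef ▸ close_typed hT _ _ t₂ ht₂ h2
  have w3 : Wf Ax Ru ((GT :: R) ++ baseCtx o) := .cons wR hGT
  refine ⟨GT, w3, ?_⟩
  have e3 : off (GT :: R) Γ = off R Γ + 1 := by simp [off]; omega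
  have bL := H.log_based w3 hA
  have bQ := bL.cons bL.qT
  -- the renaming of the locals into the body of the log
  set f := lift Γ.length 1 with hfdef
  have hfix : RFix f (off R Γ) (off (GT :: R) Γ) := by
    intro j
    simp only [hfdef, lift, off, List.length_cons]
    rw [if_neg (by omega)]; omega
  have hf : RenOK (ctx o R Γ) (ctx o (GT :: R) Γ) f := renOK_lift [GT] R hA.wf
  have hf1 := (hf.up (oV (off R Γ))).up (zTy (off R Γ) A)
  rw [oV_ren hfix] at hf1
  have ez : (zTy (off R Γ) A).ren (upr f) = zTy (off (GT :: R) Γ) A := by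
    rw [zTy, ctyp_ren hfix.up, (tr_ren A _ _ Nat.succ _ _ hfix.up).2, q0V_ren hfix.up, zTy,
      tr_bound A Γ.length _ (upr f ∘ Nat.succ) Nat.succ _ hA.bound
        fun i hi => by simp [hfdef, lift, upr, hi]]
  rw [ez] at hf1
  have hf2 := (hf1.comp (RenOK.succ _ (oV (off (GT :: R) Γ + 2)))).comp
    (RenOK.succ _ (qV (off (GT :: R) Γ + 3)))
  set f' := Nat.succ ∘ Nat.succ ∘ upr (upr f) with hf'def
  have hfix' : RFix f' (off R Γ + 2) (off (GT :: R) Γ + 4) :=
    (hfix.up.up.comp (RFix.succ _)).comp (RFix.succ _)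
  have hF : Typed Ax Ru (qV (off (GT :: R) Γ + 3) :: logCtx o (GT :: R) Γ A)
      (.var (Γ.length + 4))
      (GT.ren (fun i => f' ((zTy (off R Γ) A :: oV (off R Γ) :: c1 R.length Γ).length + i))) := by
    have hl := renOK_append (c1 (GT :: R).length Γ) ((GT :: R) ++ baseCtx o) 0 _ Look.zero
    have h4 := Look.succ (A := qV (off (GT :: R) Γ + 3)) (Look.succ (A := oV (off (GT :: R) Γ + 2))
      (Look.succ (A := zTy (off (GT :: R) Γ) A) (Look.succ (A := oV (off (GT :: R) Γ)) hl)))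
    simp only [c1_length, Nat.add_zero, ren_ren] at h4
    have e : (fun i => f' ((zTy (off R Γ) A :: oV (off R Γ) :: c1 R.length Γ).length + i)) =
        Nat.succ ∘ Nat.succ ∘ Nat.succ ∘ Nat.succ ∘ (fun x => Γ.length + x) ∘ Nat.succ := by
      funext i
      simp only [hf'def, hfdef, Function.comp, List.length_cons, c1_length]
      rw [show Γ.length + 1 + 1 + i = Γ.length + i + 1 + 1 by omega]
      simp [upr, lift]; omega
    rw [e]
    exact h4.typed bQ.wf
  have hsp := apps_typed (Δ := R ++ baseCtx o) bQ.wf _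
    (.pi (.pi (XA.ren Nat.succ) (qV (off R Γ + 3)))
      (.pi (oV (off R Γ + 3)) (.pi (qV (off R Γ + 4)) (qV (off R Γ + 5)))))
    (.var (Γ.length + 4)) f' hf2 (by rw [hGTdef]; exact hF)
  simp only [Tm.ren, qV_ren hfix'.up, oV_ren hfix'.up, qV_ren hfix'.up.up,
    qV_ren hfix'.up.up.up] at hsp
  have hTA' : Typed Ax Ru (qV (off (GT :: R) Γ + 3) :: logCtx o (GT :: R) Γ A)
      ((XA.ren Nat.succ).ren f') (.srt s) := hTA.ren hf2 bQ.wf
  have bT := bQ.cons hTA'
  have hlam : Typed Ax Ru (qV (off (GT :: R) Γ + 3) :: logCtx o (GT :: R) Γ A)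
      (.lam ((XA.ren Nat.succ).ren f') (q0V (off (GT :: R) Γ + 4 + 1)))
      (.pi ((XA.ren Nat.succ).ren f') (qV (off (GT :: R) Γ + 4 + 1))) :=
    .abs bT.q0T (.prod hTA' bT.qT r₁)
  have hH := Hub.Typed.app hsp hlam
  simp only [Tm.sub, oV_sub (fix_inst (off (GT :: R) Γ + 4) _),
    qV_sub (fix_inst (off (GT :: R) Γ + 4) _).up,
    qV_sub (fix_inst (off (GT :: R) Γ + 4) _).up.up] at hH
  simp only [List.length_cons, apps] at hH
  rw [show f' 0 = 2 from rfl, c1_length] at hH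
  refine ⟨_, dA, edA, hH, fun Θ2 ρ2 bi h1' h2' hbi h3' => ?_⟩
  have nq : ∀ {i k}, Θ2 i = k → k ≠ .Q → push Kd.Q (demote Θ2) (i + 1) = k := fun h hk => by
    simp [push, demote, h, hk]
  have eT := eXA.ren (Θ' := push .Q (demote Θ2)) (ρ' := upr ρ2) (f := f' ∘ Nat.succ)
    (g := fun i => match i with | 0 => ρ2 2 + 1 | j + 1 => ρ2 (j + 3) + 1) (by
      intro i hi
      cases i with
      | zero => exact ⟨nq h2' (by simp [push]), fun _ => rfl⟩
      | succ i =>
        obtain ⟨e1, e2⟩ := Theta_lift Γ.length R.length 1 i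
        have hh : Θ2 (f i + 3) = Theta Γ.length R.length i := by
          rw [h3', Nat.add_comm R.length 1]; exact e1 hi
        refine ⟨nq (i := f i + 3) hh (Theta_ne_Q _ _ _), fun hk => ?_⟩
        show ρ2 (f i + 3) + 1 = ρ2 (i + 3) + 1
        rw [hfdef, e2 hk])
  rw [← ren_ren] at eT
  refine Er.lLam (Er.qApp (Er.var (i := 3) (nq h2' (by simp)) (by trivial)) ?_)
  have := Er.log (e := q0V (off (GT :: R) Γ + 4 + 1))
    (apps_er (F := (Tm.var (Γ.length + 4) : Tm S)) (Er.head ?_) (Γ.length + 1) (f' ∘ Nat.succ))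
    (Er.var (i := 2) (ρ := upr ρ2) (nq h1' (by simp)) (by trivial)) eT
    (Er.var (i := bi + 1) (ρ := upr ρ2) (nq hbi (by simp)) (by trivial))
    (Er.var (i := 0) (ρ := upr ρ2) (Θ := push Kd.Q (demote Θ2)) rfl (by trivial))
  · simp only [skel_ren] at this
    simp only [skel_ren]
    exact this
  · exact nq (i := Γ.length + 3) ((h3' _).trans (Theta_G _ _)) (by simp)

end Vale.Agent.P340.Unit
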