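import Vale.Agent.P340.Unit.Ctx

/-!
The copy without logs is typed.
-/

namespace Vale.Agent.P340.Unit

open Vale.Agent.P340.Hub

universe u

variable {S : Type u} {Ax : S → S → Prop} {Ru : S → S → S → Prop} {o : S}

/-- Sorts and products. -/
def Former : Tm S → Prop
  | .srt _ => True
  | .pi _ _ => True
  | _ => False

theorem former_ren (M : Tm S) (f : ℕ → ℕ) : Former (M.ren f) ↔ Former M := by
  cases M <;> exact Iff.rfl

theorem tr_dec {M : Tm S} (h : ¬ Former M) (m : ℕ) (f : ℕ → ℕ) (c : Tm S) :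
    (tr m f c M).2 = dec m c (tr m f c M).1 := by
  cases M <;> first | rfl | exact absurd trivial h

theorem el_srt_ren {g : ℕ → ℕ} {m m' : ℕ} (h : RFix g m m') (s : S) :
    (el m (.srt s : Tm S)).ren g = .pi (dV m' (q0V m')) (.pi (oV (m' + 1)) (.srt s)) := by
  rw [el_ren h]; rfl

/-- The value of a judgment is typed in every target context. -/
def Val (Ax : S → S → Prop) (Ru : S → S → S → Prop) (o : S) (R Γ : List (Tm S)) (M A : Tm S) :
    Prop :=
  ∀ (Δ : List (Tm S)) (g : ℕ → ℕ) (m : ℕ) (c : Tm S), RenOK (ctx o R Γ) Δ g →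
    RFix g (off R Γ) m → Based Ax Ru o Δ m → Typed Ax Ru Δ c (qV m) →
    Typed Ax Ru Δ (tr m g c M).1 ((el (off R Γ) A).ren g)

/-- The type read off a judgment is typed in every target context. -/
def TypV (Ax : S → S → Prop) (Ru : S → S → S → Prop) (o : S) (R Γ : List (Tm S)) (M : Tm S)
    (s : S) : Prop :=
  ∀ (Δ : List (Tm S)) (g : ℕ → ℕ) (m : ℕ) (c : Tm S), RenOK (ctx o R Γ) Δ g →
    RFix g (off R Γ) m → Based Ax Ru o Δ m → Typed Ax Ru Δ c (qV m) →
    Typed Ax Ru Δ (tr m g c M).2 (.srt s)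

theorem TypV.el {R Γ : List (Tm S)} {A : Tm S} {s : S} (h : TypV Ax Ru o R Γ A s)
    {Δ : List (Tm S)} {g : ℕ → ℕ} {m : ℕ} (hg : RenOK (ctx o R Γ) Δ g)
    (hf : RFix g (off R Γ) m) (b : Based Ax Ru o Δ m) :
    Typed Ax Ru Δ ((Unit.el (off R Γ) A).ren g) (.srt s) := by
  rw [el_ren hf]; exact h Δ g m _ hg hf b b.q0T

theorem follow_inst (m : ℕ) (f : ℕ → ℕ) (c N : Tm S) :
    Follow (m + 1) m (upr f) f
      (inst (.lam (oV m) (tr (m + 1) (Nat.succ ∘ f) (.app (.var 0) (c.ren Nat.succ)) N).1))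
      (inst N) := by
  refine ⟨fun j => by rw [show m + 1 + j = m + j + 1 by omega]; rfl, fun i g mm hg c' => ?_⟩
  cases i with
  | zero =>
    simp only [upr, inst, Tm.ren]
    refine .trans _ _ _ (.rel _ _ (.beta _ _ _)) ?_
    rw [sub_ren]
    obtain ⟨e, -⟩ := tr_map N (m + 1) mm (Nat.succ ∘ f) (g ∘ f) (inst (konst mm c') ∘ upr g)
      (.app (.var 0) (c.ren Nat.succ))
      (fun j => by rw [show m + 1 + j = m + j + 1 by omega]; simp [upr, inst, hg j])
      (fun i => by simp [upr, inst])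
    rw [e]
    refine (tr_cong N _ _ ?_).1
    exact .rel _ _ (konst_app _ _ _)
  | succ i => exact .refl _

theorem off_cons (R Γ : List (Tm S)) (A : Tm S) : off R (A :: Γ) = off R Γ + 1 := by
  simp [off]; omega

theorem renOK_cons (R Γ : List (Tm S)) (A : Tm S) :
    RenOK (ctx o R Γ) (ctx o R (A :: Γ)) Nat.succ :=
  RenOK.succ _ _

theorem renOK_bind {R Γ : List (Tm S)} {A : Tm S} {Δ : List (Tm S)} {g : ℕ → ℕ} {m : ℕ}
    (hg : RenOK (ctx o R Γ) Δ g) (hf : RFix g (off R Γ) m) :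
    RenOK (ctx o R (A :: Γ)) (ctyp m ((el (off R Γ) A).ren g) :: Δ) (upr g) := by
  have := hg.up (ctyp (off R Γ) (el (off R Γ) A))
  rwa [ctyp_ren hf] at this

/-- The pure copy of a derivable judgment is typed. -/
theorem UnitAt.pure (H : UnitAt Ax Ru o) {Γ : List (Tm S)} {M A : Tm S}
    (h : DTyped Ax Ru Γ M A) : ∀ R, Wf Ax Ru (R ++ baseCtx o) →
    Wf Ax Ru (ctx o R Γ) ∧ (SortTy Ax A → Val Ax Ru o R Γ M A) ∧
      (∀ s, A = .srt s → TypV Ax Ru o R Γ M s) ∧
      (Former M → ∃ s, TypV Ax Ru o R Γ M s ∧ Conv A (.srt s)) := by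
  induction h with
  | @ax s t h =>
    intro R wR
    have hE : TypV Ax Ru o R [] (.srt s) t := fun Δ g m c _ _ b hc => b.sortT H h hc
    refine ⟨by simpa [ctx, c1] using wR, fun hA Δ g m c hg hf b hc => ?_, fun t' e => ?_,
      fun _ => ⟨t, hE, .refl _⟩⟩
    · obtain ⟨t', ht⟩ := hA t rfl
      rw [el_srt_ren hf]
      exact b.codeT H (hE Δ g m c hg hf b hc) ht
    · cases e; exact hE
  | @var Γ A s hA ih =>
    intro R wR
    obtain ⟨w, -, hE, -⟩ := ih R wR
    have hE := hE s rfl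
    have b0 := ctx_based H w
    have hu : Typed Ax Ru (ctx o R Γ) (ctyp (off R Γ) (el (off R Γ) A)) (.srt s) :=
      .prod (b0.oT H) (Typed.weakSort (hE (ctx o R Γ) id (off R Γ) _
        (fun i B h => by rw [ren_id]; exact h) (fun j => rfl) b0 b0.q0T) (b0.oT H)) (H.inn s)
    have wA : Wf Ax Ru (ctx o R (A :: Γ)) := .cons w hu
    have hV : Val Ax Ru o R (A :: Γ) (.var 0) (A.ren Nat.succ) := by
      intro Δ g m c hg hf b hc
      rw [off_cons] at hf ⊢
      have hz := (hg _ _ .zero).typed b.wf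
      rw [ren_ren] at hz
      replace hz : Typed Ax Ru Δ (.var (g 0))
          ((ctyp (off R Γ) (el (off R Γ) A)).ren (g ∘ Nat.succ)) := hz
      rw [ctyp_ren ((RFix.succ _).comp hf)] at hz
      rw [el_succ, ren_ren]
      have := Hub.Typed.app hz (b.konstT H hc)
      rwa [inst_succ] at this
    refine ⟨wA, fun _ => hV, fun s' e Δ g m c hg hf b hc => ?_, fun hF => hF.elim⟩
    have hv := hV Δ g m c hg hf b hc
    rw [e, el_srt_ren hf] at hv
    exact b.decT H hv hc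
  | @weak Γ M B A s _ hA ihM ihA =>
    intro R wR
    obtain ⟨w, hV, hE, hF⟩ := ihM R wR
    obtain ⟨-, -, hEA, -⟩ := ihA R wR
    have hEA := hEA s rfl
    have b0 := ctx_based H w
    have hu : Typed Ax Ru (ctx o R Γ) (ctyp (off R Γ) (el (off R Γ) A)) (.srt s) :=
      .prod (b0.oT H) (Typed.weakSort (hEA (ctx o R Γ) id (off R Γ) _
        (fun i B h => by rw [ren_id]; exact h) (fun j => rfl) b0 b0.q0T) (b0.oT H)) (H.inn s)
    have lift : ∀ {s'}, TypV Ax Ru o R Γ M s' → TypV Ax Ru o R (A :: Γ) (M.ren Nat.succ) s' := by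
      intro s' h Δ g m c hg hf b hc
      rw [off_cons] at hf
      rw [tr_src]
      exact h Δ _ m c ((renOK_cons R Γ A).comp hg) ((RFix.succ _).comp hf) b hc
    refine ⟨.cons w hu, fun hB Δ g m c hg hf b hc => ?_, fun s' e => ?_, fun hf => ?_⟩
    · have hB' : SortTy Ax B := fun t e => hB t (by rw [e]; rfl)
      rw [off_cons] at hf ⊢
      rw [tr_src, el_succ, ren_ren]
      exact hV hB' Δ _ m c ((renOK_cons R Γ A).comp hg) ((RFix.succ _).comp hf) b hc
    · cases B with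
      | srt t => cases e; exact lift (hE _ rfl)
      | _ => cases e
    · obtain ⟨s', h, hc⟩ := hF ((former_ren _ _).1 hf)
      exact ⟨s', lift h, Conv.ren hc _⟩
  | @prod Γ A B s₁ s₂ s₃ _ _ hr ihA ihB =>
    intro R wR
    obtain ⟨w, -, hA, -⟩ := ihA R wR
    obtain ⟨-, -, hB, -⟩ := ihB R wR
    have hA := hA s₁ rfl
    have hB := hB s₂ rfl
    have hE : TypV Ax Ru o R Γ (.pi A B) s₃ := by
      intro Δ g m c hg hf b hc
      have hCA : Typed Ax Ru Δ (ctyp m (tr m g (q0V m) A).2) (.srt s₁) :=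
        .prod (b.oT H) (Typed.weakSort (hA Δ g m _ hg hf b b.q0T) (b.oT H)) (H.inn _)
      have b1 := b.cons hCA
      have hg1 := renOK_bind (A := A) hg hf
      rw [el_ren hf] at hg1
      have hc1 := Hub.Typed.weak hc hCA
      rw [qV_ren (RFix.succ m)] at hc1
      have hb := hB _ _ (m + 1) _ hg1 (by rw [off_cons]; exact hf.up) b1 hc1
      exact .prod hCA (.prod (b1.oT H) (Typed.weakSort hb (b1.oT H)) (H.inn _)) hr
    refine ⟨w, fun h3 Δ g m c hg hf b hc => ?_, fun s e => ?_, fun _ => ⟨s₃, hE, .refl _⟩⟩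
    · obtain ⟨t, ht⟩ := h3 s₃ rfl
      rw [el_srt_ren hf]
      exact b.codeT H (hE Δ g m c hg hf b hc) ht
    · cases e; exact hE
  | @abs Γ A M B s _ hP ihM ihP =>
    intro R wR
    obtain ⟨w, -, hE, -⟩ := ihP R wR
    have hE := hE s rfl
    obtain ⟨-, hV, -, -⟩ := ihM R wR
    have hV := hV (SortTy.of_allTy hP.allTy.2)
    refine ⟨w, fun _ Δ g m c hg hf b hc => ?_, fun s e => (by cases e), fun hF => hF.elim⟩
    have hT := hE Δ g m _ hg hf b b.q0T
    obtain ⟨_, _, _, _, q1, h1⟩ := hT.pi_inv rfl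
    obtain ⟨_, _, _, _, q2, h2⟩ := h1.pi_inv rfl
    have b2 := (b.cons q1).cons q2
    have hg1 := renOK_bind (A := A) hg hf
    rw [el_ren hf] at hg1
    have hc2 := Hub.Typed.weak (Hub.Typed.weak hc q1) q2
    rw [qV_ren (RFix.succ m), qV_ren (RFix.succ (m + 1))] at hc2
    have hb := hV _ (Nat.succ ∘ upr g) (m + 2) _ (hg1.comp (RenOK.succ _ _))
      (by rw [off_cons]; exact hf.up.comp (RFix.succ _)) b2 hc2
    rw [← ren_ren, off_cons, el_ren hf.up, ← q0V_ren (RFix.succ m)] at hb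
    rw [el_ren hf]
    exact .abs (.abs hb h1) hT
  | @app Γ M N A B s t _ hN hP _ ihM ihN ihP ihT =>
    intro R wR
    obtain ⟨w, hVM, -, -⟩ := ihM R wR
    obtain ⟨-, hVN, -, -⟩ := ihN R wR
    obtain ⟨-, -, hEP, -⟩ := ihP R wR
    obtain ⟨-, -, hET, -⟩ := ihT R wR
    have hV := app_val H (hVM fun _ e => by cases e)
      (hVN (SortTy.of_allTy hP.allTy.1)) (hEP s rfl) (fun hg hf b => ⟨t, (hET t rfl).el hg hf b⟩)
    refine ⟨w, fun _ => hV, fun s' e Δ g m c hg hf b hc => ?_, fun hF => hF.elim⟩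
    have hv := hV Δ g m c hg hf b hc
    rw [e, el_srt_ren hf] at hv
    exact b.decT H hv hc
  | @appSort Γ M N A B s t _ hN hP eT ihM ihN ihP =>
    intro R wR
    obtain ⟨w, hVM, -, -⟩ := ihM R wR
    obtain ⟨-, hVN, -, -⟩ := ihN R wR
    obtain ⟨-, -, hEP, -⟩ := ihP R wR
    obtain ⟨t', ht⟩ := SortTy.of_allTy (allTy_sub B hP.allTy.2 fun i => by
      cases i <;> first | exact hN.allTy | trivial) t eT
    have hV := app_val H (hVM fun _ e => by cases e)
      (hVN (SortTy.of_allTy hP.allTy.1)) (hEP s rfl) (fun {Δ g m} _ hf b => by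
        rw [eT, el_srt_ren hf]; exact ⟨_, b.sortT H ht b.q0T⟩)
    refine ⟨w, fun _ => hV, fun s' e Δ g m c hg hf b hc => ?_, fun hF => hF.elim⟩
    have hv := hV Δ g m c hg hf b hc
    rw [e, el_srt_ren hf] at hv
    exact b.decT H hv hc
  | @conv Γ M A B s _ hB hc ih ihB =>
    intro R wR
    obtain ⟨w, hV, -, hF⟩ := ih R wR
    obtain ⟨-, -, hEB, -⟩ := ihB R wR
    have hV' : Val Ax Ru o R Γ M B := fun Δ g m c hg hf b hc' =>
      .conv (hV (SortTy.of_conv hB.allTy hc) Δ g m c hg hf b hc') ((hEB s rfl).el hg hf b)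
        (Conv.ren (tr_conv hc _ _ _).2 g)
    refine ⟨w, fun _ => hV', fun s' e => ?_, fun hf => ?_⟩
    · by_cases hf : Former M
      · obtain ⟨s₀, h, h'⟩ := hF hf
        obtain rfl : s₀ = s' := Conv.srt_inj (.trans _ _ _ (.symm _ _ h') (e ▸ hc))
        exact h
      · intro Δ g m c hg hfx b hc'
        have hv := hV' Δ g m c hg hfx b hc'
        rw [e, el_srt_ren hfx] at hv
        rw [tr_dec hf]
        exact b.decT H hv hc'
    · obtain ⟨s₀, h, h'⟩ := hF hf
      exact ⟨s₀, h, .trans _ _ _ (.symm _ _ hc) h'⟩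
where
  app_val {Γ R : List (Tm S)} {M N A B : Tm S} {s : S} (H : UnitAt Ax Ru o)
      (hM : Val Ax Ru o R Γ M (.pi A B)) (hN : Val Ax Ru o R Γ N A)
      (hP : TypV Ax Ru o R Γ (.pi A B) s)
      (hT : ∀ {Δ g m}, RenOK (ctx o R Γ) Δ g → RFix g (off R Γ) m → Based Ax Ru o Δ m →
        ∃ t, Typed Ax Ru Δ ((el (off R Γ) (B.sub (inst N))).ren g) (.srt t)) :
      Val Ax Ru o R Γ (.app M N) (B.sub (inst N)) := by
    intro Δ g m c hg hf b hc
    obtain ⟨t, hT⟩ := hT hg hf b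
    have hF := hM Δ g m c hg hf b hc
    rw [el_ren hf] at hF
    obtain ⟨_, _, _, _, q1, -⟩ := (hP Δ g m _ hg hf b b.q0T).pi_inv rfl
    have b1 := b.bo H
    have h0 := Look.typed (.zero (Γ := Δ) (A := oV m)) b1.wf
    rw [oV_ren (RFix.succ m)] at h0
    have hcw := Hub.Typed.weak hc (b.oT H)
    rw [qV_ren (RFix.succ m)] at hcw
    have hc1 := Hub.Typed.app h0 hcw
    rw [inst_succ] at hc1
    have hn := hN _ (Nat.succ ∘ g) (m + 1) _ (hg.comp (RenOK.succ _ _))
      (hf.comp (RFix.succ m)) b1 hc1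
    rw [← ren_ren, el_ren hf] at hn
    have h1 := Hub.Typed.app hF (.abs hn q1)
    simp only [Tm.sub, succ_sub'] at h1
    rw [oV_sub (m' := m) (fun j => by rw [show m + 1 + j = m + j + 1 by omega]; rfl)] at h1
    have h2 := Hub.Typed.app h1 (b.konstT H hc)
    rw [inst_succ] at h2
    refine .conv h2 hT ?_
    have key := (tr_sub B _ _ _ _ _ _ ((q0V m).ren Nat.succ) (follow_inst m g c N)).2
    rw [inst_succ] at key
    rw [el_ren hf]
    exact key

end Vale.Agent.P340.Unit
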