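import Vale.Agent.P340.Unit.Pure

/-!
Judgments only mention the variables of their contexts.
-/

namespace Vale.Agent.P340.Unit

open Vale.Agent.P340.Hub

universe u

variable {S : Type u} {Ax : S → S → Prop} {Ru : S → S → S → Prop}

/-- The free variables are below `n`. -/
def Bound : ℕ → Tm S → Prop
  | n, .var i => i < n
  | _, .srt _ => True
  | n, .app a b => Bound n a ∧ Bound n b
  | n, .lam a b => Bound n a ∧ Bound (n + 1) b
  | n, .pi a b => Bound n a ∧ Bound (n + 1) b

theorem bound_ren (M : Tm S) : ∀ {n n' : ℕ} {f : ℕ → ℕ}, (∀ i, i < n → f i < n') → Bound n M →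
    Bound n' (M.ren f) := by
  have up : ∀ {n n' : ℕ} {f : ℕ → ℕ}, (∀ i, i < n → f i < n') →
      ∀ i, i < n + 1 → upr f i < n' + 1 := by
    intro n n' f hf i hi
    cases i with
    | zero => simp [upr]
    | succ i => simpa [upr] using hf i (by omega)
  induction M with
  | var i => intro n n' f hf h; exact hf i h
  | srt s => intros; trivial
  | app a b iha ihb => intro n n' f hf h; exact ⟨iha hf h.1, ihb hf h.2⟩
  | lam a b iha ihb => intro n n' f hf h; exact ⟨iha hf h.1, ihb (up hf) h.2⟩
  | pi a b iha ihb => intro n n' f hf h; exact ⟨iha hf h.1, ihb (up hf) h.2⟩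

theorem DTyped.bound {Γ : List (Tm S)} {M A : Tm S} (h : DTyped Ax Ru Γ M A) :
    Bound Γ.length M := by
  induction h with
  | ax => trivial
  | var => exact Nat.succ_pos _
  | weak _ _ ih _ => exact bound_ren _ (fun i hi => Nat.succ_lt_succ hi) ih
  | prod _ _ _ ih1 ih2 => exact ⟨ih1, ih2⟩
  | abs _ _ ih1 ih2 => exact ⟨ih2.1, ih1⟩
  | app _ _ _ _ ih1 ih2 => exact ⟨ih1, ih2⟩
  | appSort _ _ _ _ ih1 ih2 => exact ⟨ih1, ih2⟩
  | conv _ _ _ ih => exact ih

theorem tr_bound (M : Tm S) : ∀ (n m : ℕ) (f f' : ℕ → ℕ) (c : Tm S), Bound n M →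
    (∀ i, i < n → f i = f' i) → tr m f c M = tr m f' c M := by
  have up : ∀ {n : ℕ} {f f' : ℕ → ℕ}, (∀ i, i < n → f i = f' i) →
      ∀ i, i < n + 1 → upr f i = upr f' i := by
    intro n f f' hf i hi
    cases i with
    | zero => rfl
    | succ i => simp [upr, hf i (by omega)]
  induction M with
  | var i => intro n m f f' c h hf; simp only [tr, hf i h]
  | srt s => intros; rfl
  | app a b iha ihb =>
    intro n m f f' c h hf
    simp only [tr, iha n m f f' _ h.1 hf,
      ihb n (m + 1) (Nat.succ ∘ f) (Nat.succ ∘ f') _ h.2 fun i hi => congrArg Nat.succ (hf i hi)]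
  | lam a b iha ihb =>
    intro n m f f' c h hf
    simp only [tr, iha n m f f' _ h.1 hf, ihb (n + 1) (m + 2) (Nat.succ ∘ upr f) (Nat.succ ∘ upr f') _
      h.2 fun i hi => congrArg Nat.succ (up hf i hi)]
  | pi a b iha ihb =>
    intro n m f f' c h hf
    simp only [tr, iha n m f f' _ h.1 hf, ihb (n + 1) (m + 1) (upr f) (upr f') _ h.2 (up hf)]

/-- Skip new families. -/
def lift (n e i : ℕ) : ℕ := if i < n then i else i + e

theorem lift_succ (n e : ℕ) : lift (n + 1) e = upr (lift n e) := by
  funext i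
  cases i with
  | zero => simp [lift, upr]
  | succ i => simp only [lift, upr]; split_ifs <;> omega

theorem rfix_lift (n r e : ℕ) : RFix (lift n e) (n + r) (n + (e + r)) := fun j => by
  simp only [lift, if_neg (show ¬ n + r + j < n by omega)]; omega

theorem el_lift {n : ℕ} {A : Tm S} (h : Bound n A) (r e : ℕ) :
    (el (n + r) A).ren (lift n e) = el (n + (e + r)) A := by
  rw [el_ren (rfix_lift n r e), el, tr_bound A n _ (lift n e) id _ h fun i hi => by simp [lift, hi]]

theorem renOK_lift {o : S} (E R : List (Tm S)) {Γ : List (Tm S)} (w : DWf Ax Ru Γ) :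
    RenOK (ctx o R Γ) (ctx o (E ++ R) Γ) (lift Γ.length E.length) := by
  induction w with
  | nil =>
    have e : lift 0 E.length = (E.length + ·) := by funext i; simp [lift, Nat.add_comm]
    simpa [ctx, c1, List.append_assoc, e] using renOK_append E (R ++ baseCtx o)
  | @cons Γ A s _ hA ih =>
    have h := ih.up (ctyp (Γ.length + R.length) (el (Γ.length + R.length) A))
    rw [ctyp_ren (rfix_lift Γ.length R.length E.length), el_lift hA.bound,
      ← List.length_append] at h
    simpa [ctx, c1, lift_succ] using h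

end Vale.Agent.P340.Unit
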