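import Vale.Agent.P340.Hub.Conserve

/-!
Skeletons of decorated expressions and the simulation of every source step.
Decorations say where a product or a sort is used as a type and where as a code of a type.
-/

namespace Vale.Agent.P340.Unit

open Vale.Agent.P340.Hub

universe u

variable {S : Type u}

/-- The classes of decorated expressions: terms, types and records of erased material. -/
inductive Cat | tm | ty | rec_

/-- Decorated expressions. -/
inductive De (S : Type u) : Cat → Type u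
  | var : ℕ → De S .tm
  | app : De S .tm → De S .tm → De S .tm
  | lam : De S .ty → De S .tm → De S .tm
  | cSrt : S → De S .tm
  | cPi : De S .ty → De S .ty → De S .tm
  | mem : De S .rec_ → De S .tm → De S .tm
  | base : De S .rec_
  | push : De S .ty → De S .tm → De S .rec_ → De S .rec_ → De S .rec_
  | tSrt : S → De S .ty
  | tPi : De S .ty → De S .ty → De S .ty
  | el : De S .tm → De S .ty

/-- Forget the decoration. -/
def De.strip : {k : Cat} → De S k → Tm S
  | _, .var i => .var i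
  | _, .app a b => .app a.strip b.strip
  | _, .lam a b => .lam a.strip b.strip
  | _, .cSrt s => .srt s
  | _, .cPi a b => .pi a.strip b.strip
  | _, .mem _ b => b.strip
  | _, .base => .var 0
  | _, .push _ _ _ _ => .var 0
  | _, .tSrt s => .srt s
  | _, .tPi a b => .pi a.strip b.strip
  | _, .el a => a.strip

/-- Renaming. -/
def De.ren : {k : Cat} → (ℕ → ℕ) → De S k → De S k
  | _, f, .var i => .var (f i)
  | _, f, .app a b => .app (a.ren f) (b.ren f)
  | _, f, .lam a b => .lam (a.ren f) (b.ren (upr f))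
  | _, _, .cSrt s => .cSrt s
  | _, f, .cPi a b => .cPi (a.ren f) (b.ren (upr f))
  | _, f, .mem r b => .mem (r.ren f) (b.ren f)
  | _, _, .base => .base
  | _, f, .push a n r c => .push (a.ren f) (n.ren f) (r.ren f) (c.ren f)
  | _, _, .tSrt s => .tSrt s
  | _, f, .tPi a b => .tPi (a.ren f) (b.ren (upr f))
  | _, f, .el a => .el (a.ren f)

/-- A substitution lifted under a binder. -/
def dups (σ : ℕ → De S .tm) : ℕ → De S .tm
  | 0 => .var 0
  | n + 1 => (σ n).ren Nat.succ

/-- Substitution. -/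
def De.sub : {k : Cat} → (ℕ → De S .tm) → De S k → De S k
  | _, σ, .var i => σ i
  | _, σ, .app a b => .app (a.sub σ) (b.sub σ)
  | _, σ, .lam a b => .lam (a.sub σ) (b.sub (dups σ))
  | _, _, .cSrt s => .cSrt s
  | _, σ, .cPi a b => .cPi (a.sub σ) (b.sub (dups σ))
  | _, σ, .mem r b => .mem (r.sub σ) (b.sub σ)
  | _, _, .base => .base
  | _, σ, .push a n r c => .push (a.sub σ) (n.sub σ) (r.sub σ) (c.sub σ)
  | _, _, .tSrt s => .tSrt s
  | _, σ, .tPi a b => .tPi (a.sub σ) (b.sub (dups σ))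
  | _, σ, .el a => .el (a.sub σ)

/-- The substitution for the last variable. -/
def dinst (a : De S .tm) : ℕ → De S .tm
  | 0 => a
  | n + 1 => .var n

theorem strip_ren {k : Cat} (X : De S k) : k ≠ .rec_ → ∀ f, (X.ren f).strip = X.strip.ren f := by
  induction X <;> intro hk f <;> simp_all [De.ren, De.strip, Tm.ren]

theorem strip_sub {k : Cat} (X : De S k) : k ≠ .rec_ → ∀ σ : ℕ → De S .tm,
    (X.sub σ).strip = X.strip.sub (fun i => (σ i).strip) := by
  have e : ∀ σ : ℕ → De S .tm, (fun i => (dups σ i).strip) = ups (fun i => (σ i).strip) :=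
    fun σ => by funext i; cases i <;> simp [dups, ups, De.strip, strip_ren]
  induction X <;> intro hk σ <;> simp_all [De.sub, De.strip, Tm.sub]

theorem succ_sub (t : Tm S) (τ : ℕ → Tm S) :
    (t.ren Nat.succ).sub (ups τ) = (t.sub τ).ren Nat.succ := by
  rw [sub_ren, ren_sub]; rfl

theorem two_sub (t : Tm S) (τ : ℕ → Tm S) :
    (t.ren (· + 2)).sub (ups (ups τ)) = (t.sub τ).ren (· + 2) := by
  rw [sub_ren, ren_sub]
  congr 1; funext i; simp [ups, ren_ren, Function.comp_def]

/-- An inert pair of skeletons. -/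
def node (a b : Sk) : Sk := .pi a (b.ren Nat.succ)

theorem node_sub (a b : Sk) (τ : ℕ → Sk) : (node a b).sub τ = node (a.sub τ) (b.sub τ) := by
  simp only [node, Tm.sub, succ_sub]

/-- The log `l` as an abstraction. -/
def eta (l : Sk) : Sk := .lam star (.app (l.ren Nat.succ) (.var 0))

/-- The log after an abstraction: annotation, value and inner log are recorded. -/
def logOf (L a b c : Sk) : Sk :=
  .lam star (.app (L.ren Nat.succ)
    (node (a.ren Nat.succ) (node (b.ren Nat.succ) (node (c.ren Nat.succ) (.var 0)))))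

/-- The log inside a code. -/
def log0 (L b c : Sk) : Sk :=
  .lam star (.app (L.ren Nat.succ) (node (b.ren Nat.succ) (node (c.ren Nat.succ) (.var 0))))

theorem eta_sub (l : Sk) (τ : ℕ → Sk) : (eta l).sub τ = eta (l.sub τ) := by
  simp only [eta, Tm.sub, succ_sub, ups]

theorem logOf_sub (L a b c : Sk) (τ : ℕ → Sk) :
    (logOf L a b c).sub τ = logOf (L.sub τ) (a.sub τ) (b.sub τ) (c.sub τ) := by
  simp only [logOf, Tm.sub, node_sub, succ_sub, ups]

theorem log0_sub (L b c : Sk) (τ : ℕ → Sk) :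
    (log0 L b c).sub τ = log0 (L.sub τ) (b.sub τ) (c.sub τ) := by
  simp only [log0, Tm.sub, node_sub, succ_sub, ups]

/-- The variable map under the two binders of an abstraction: the value and the log. -/
def lmap (ρ : ℕ → ℕ) : ℕ → ℕ
  | 0 => 1
  | n + 1 => ρ n + 2

/-- The skeleton of a decorated expression computed with the log `L`. -/
def skel : {k : Cat} → (ℕ → ℕ) → De S k → Sk → Sk
  | _, ρ, .var i, L => .app (.var (ρ i)) L
  | _, ρ, .app f a, L =>
    .app (.app (skel ρ f L) (.lam star (skel (fun i => ρ i + 1) a (eta (.var 0))))) L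
  | _, ρ, .lam A b, L =>
    .lam star (.lam star (skel (lmap ρ) b
      (logOf (L.ren (· + 2)) ((skel ρ A L).ren (· + 2)) (.var 1) (.var 0))))
  | _, _, .cSrt _, L =>
    .lam star (.lam star (node (log0 (L.ren (· + 2)) (.var 1) (.var 0)) star))
  | _, ρ, .cPi A B, L =>
    .lam star (.lam star (.pi star (skel (upr fun i => ρ i + 2) B
      (logOf ((log0 (L.ren (· + 2)) (.var 1) (.var 0)).ren Nat.succ)
        ((skel (fun i => ρ i + 2) A (log0 (L.ren (· + 2)) (.var 1) (.var 0))).ren Nat.succ) (.var 0)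
        ((log0 (L.ren (· + 2)) (.var 1) (.var 0)).ren Nat.succ)))))
  | _, ρ, .mem r b, L => skel ρ b (skel ρ r L)
  | _, _, .base, L => L
  | _, ρ, .push A a r c, L =>
    logOf (skel ρ r L) (skel ρ A (skel ρ r L)) (.lam star (skel (fun i => ρ i + 1) a (eta (.var 0))))
      (skel ρ c L)
  | _, _, .tSrt _, L => node L star
  | _, ρ, .tPi A B, L =>
    .pi star (skel (upr ρ) B
      (logOf (L.ren Nat.succ) ((skel ρ A L).ren Nat.succ) (.var 0) (L.ren Nat.succ)))
  | _, ρ, .el X, L => .app (.app (skel ρ X L) star) L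

theorem skel_deren {k : Cat} (X : De S k) : ∀ (ρ f : ℕ → ℕ) (L : Sk),
    skel ρ (X.ren f) L = skel (ρ ∘ f) X L := by
  induction X with
  | var i => intros; rfl
  | app a b iha ihb => intro ρ f L; simp only [De.ren, skel, iha, ihb]; rfl
  | lam a b iha ihb =>
    intro ρ f L
    simp only [De.ren, skel, iha, ihb]
    rw [show lmap ρ ∘ upr f = lmap (ρ ∘ f) by funext i; cases i <;> rfl]
  | cSrt s => intros; rfl
  | cPi a b iha ihb => intro ρ f L; simp only [De.ren, skel, iha, ihb, upr_comp]; rfl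
  | mem r b ihr ihb => intro ρ f L; simp only [De.ren, skel, ihr, ihb]
  | base => intros; rfl
  | push a n r c iha ihn ihr ihc =>
    intro ρ f L; simp only [De.ren, skel, iha, ihn, ihr, ihc]; rfl
  | tSrt s => intros; rfl
  | tPi a b iha ihb => intro ρ f L; simp only [De.ren, skel, iha, ihb, upr_comp]
  | el a ih => intro ρ f L; simp only [De.ren, skel, ih]

theorem skel_map {k : Cat} (X : De S k) : ∀ (ρ ρ' : ℕ → ℕ) (τ : ℕ → Sk) (L : Sk),
    (∀ i, τ (ρ i) = .var (ρ' i)) → (skel ρ X L).sub τ = skel ρ' X (L.sub τ) := by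
  have h2 : ∀ (ρ ρ' : ℕ → ℕ) (τ : ℕ → Sk), (∀ i, τ (ρ i) = .var (ρ' i)) →
      ∀ i, ups (ups τ) (ρ i + 2) = .var (ρ' i + 2) := fun ρ ρ' τ h i => by
    simp [ups, h, Tm.ren]
  have h3 : ∀ (ρ ρ' : ℕ → ℕ) (τ : ℕ → Sk), (∀ i, τ (ρ i) = .var (ρ' i)) →
      ∀ i, ups τ (upr ρ i) = .var (upr ρ' i) := fun ρ ρ' τ h i => by
    cases i <;> simp [upr, ups, h, Tm.ren]
  induction X with
  | var i => intro ρ ρ' τ L h; simp [skel, Tm.sub, h]
  | app a b iha ihb =>
    intro ρ ρ' τ L h
    have h1 : ∀ i, ups τ (ρ i + 1) = .var (ρ' i + 1) := fun i => by simp [ups, h, Tm.ren]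
    simp only [skel, Tm.sub, iha ρ ρ' τ L h, ihb _ _ (ups τ) _ h1, eta_sub, ups]
  | lam a b iha ihb =>
    intro ρ ρ' τ L h
    have h1 : ∀ i, ups (ups τ) (lmap ρ i) = .var (lmap ρ' i) := fun i => by
      cases i <;> simp [lmap, ups, h, Tm.ren]
    simp only [skel, Tm.sub, ihb (lmap ρ) (lmap ρ') _ _ h1, logOf_sub, two_sub,
      iha ρ ρ' τ L h, ups]
    rfl
  | cSrt s => intro ρ ρ' τ L h; simp only [skel, Tm.sub, node_sub, log0_sub, two_sub, ups]; rfl
  | cPi a b iha ihb =>
    intro ρ ρ' τ L h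
    simp only [skel, Tm.sub, iha _ _ _ _ (h2 ρ ρ' τ h), ihb _ _ _ _ (h3 _ _ _ (h2 ρ ρ' τ h)),
      succ_sub, logOf_sub, log0_sub, two_sub, ups]
    rfl
  | mem r b ihr ihb => intro ρ ρ' τ L h; simp only [skel, ihb ρ ρ' τ _ h, ihr ρ ρ' τ L h]
  | base => intro ρ ρ' τ L h; simp only [skel]
  | push a n r c iha ihn ihr ihc =>
    intro ρ ρ' τ L h
    have h1 : ∀ i, ups τ (ρ i + 1) = .var (ρ' i + 1) := fun i => by simp [ups, h, Tm.ren]
    simp only [skel, logOf_sub, Tm.sub, iha ρ ρ' τ _ h, ihr ρ ρ' τ L h, ihc ρ ρ' τ L h,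
      ihn _ _ _ _ h1, eta_sub, ups]
  | tSrt s => intro ρ ρ' τ L h; simp only [skel, node_sub, Tm.sub]
  | tPi a b iha ihb =>
    intro ρ ρ' τ L h
    simp only [skel, Tm.sub, iha ρ ρ' τ L h, ihb _ _ _ _ (h3 ρ ρ' τ h), logOf_sub, succ_sub, ups]
  | el a ih => intro ρ ρ' τ L h; simp only [skel, Tm.sub, ih ρ ρ' τ L h]

theorem skel_ren {k : Cat} (X : De S k) (ρ f : ℕ → ℕ) (L : Sk) :
    (skel ρ X L).ren f = skel (f ∘ ρ) X (L.ren f) := by
  rw [ren_eq_sub, ren_eq_sub L, skel_map X ρ (f ∘ ρ) _ L fun i => rfl]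

theorem node_steps {a a' b b' : Sk} (ha : Steps a a') (hb : Steps b b') :
    Steps (node a b) (node a' b') :=
  (Steps.pi₁ _ ha).trans (Steps.pi₂ _ (hb.lift _ fun _ _ s => s.ren _))

theorem Steps.ren {a b : Sk} (h : Steps a b) (f : ℕ → ℕ) : Steps (a.ren f) (b.ren f) :=
  h.lift _ fun _ _ s => s.ren f

theorem logOf_steps {L L' a a' b b' c c' : Sk} (hL : Steps L L') (ha : Steps a a')
    (hb : Steps b b') (hc : Steps c c') : Steps (logOf L a b c) (logOf L' a' b' c') :=
  Steps.lam₂ _ ((Steps.app₁ _ (Steps.ren hL _)).trans (Steps.app₂ _ (node_steps (Steps.ren ha _)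
    (node_steps (Steps.ren hb _) (node_steps (Steps.ren hc _) .refl)))))

theorem log0_steps {L L' : Sk} (hL : Steps L L') (b c : Sk) : Steps (log0 L b c) (log0 L' b c) :=
  Steps.lam₂ _ (Steps.app₁ _ (Steps.ren hL _))

theorem skel_steps {k : Cat} (X : De S k) : ∀ (ρ : ℕ → ℕ) {L L' : Sk}, Steps L L' →
    Steps (skel ρ X L) (skel ρ X L') := by
  induction X with
  | var i => intro ρ L L' h; exact h.app₂ _
  | app a b iha _ => intro ρ L L' h; exact (Steps.app₁ _ ((iha ρ h).app₁ _)).trans (h.app₂ _)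
  | lam a b iha ihb =>
    intro ρ L L' h
    exact Steps.lam₂ _ (Steps.lam₂ _ (ihb _
      (logOf_steps (Steps.ren h _) (Steps.ren (iha ρ h) _) .refl .refl)))
  | cSrt s =>
    intro ρ L L' h
    exact Steps.lam₂ _ (Steps.lam₂ _ (node_steps (log0_steps (Steps.ren h _) _ _) .refl))
  | cPi a b iha ihb =>
    intro ρ L L' h
    have h0 := log0_steps (Steps.ren h (· + 2)) (.var 1) (.var 0)
    exact Steps.lam₂ _ (Steps.lam₂ _ (Steps.pi₂ _ (ihb _ (logOf_steps (Steps.ren h0 _)
      (Steps.ren (iha _ h0) _) .refl (Steps.ren h0 _)))))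
  | mem r b ihr ihb => intro ρ L L' h; exact ihb ρ (ihr ρ h)
  | base => intro ρ L L' h; exact h
  | push a n r c iha _ ihr ihc =>
    intro ρ L L' h; exact logOf_steps (ihr ρ h) (iha ρ (ihr ρ h)) .refl (ihc ρ h)
  | tSrt s => intro ρ L L' h; exact node_steps h .refl
  | tPi a b iha ihb =>
    intro ρ L L' h
    exact Steps.pi₂ _ (ihb _ (logOf_steps (Steps.ren h _) (Steps.ren (iha ρ h) _) .refl
      (Steps.ren h _)))
  | el a ih => intro ρ L L' h; exact (Steps.app₁ _ ((ih ρ h).app₁ _)).trans (h.app₂ _)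

theorem logOf_log {L L' : Sk} (h : Step L L') {a a' c c' : Sk} (b : Sk) (ha : Steps a a')
    (hc : Steps c c') : Relation.TransGen Step (logOf L a b c) (logOf L' a' b c') :=
  .head' (.lam₂ _ (.app₁ _ (h.ren _))) (logOf_steps .refl ha .refl hc)

theorem log0_log {L L' : Sk} (h : Step L L') (b c : Sk) : Step (log0 L b c) (log0 L' b c) :=
  .lam₂ _ (.app₁ _ (h.ren _))

theorem transGen_of_log {k : Cat} {X : De S k} {ρ : ℕ → ℕ}
    (h : ∀ {L L' : Sk}, Step L L' → Relation.TransGen Step (skel ρ X L) (skel ρ X L'))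
    {L L' : Sk} (hl : Relation.TransGen Step L L') :
    Relation.TransGen Step (skel ρ X L) (skel ρ X L') := by
  induction hl with
  | single s => exact h s
  | tail _ s ih => exact ih.trans (h s)

theorem skel_log {k : Cat} (X : De S k) : ∀ (ρ : ℕ → ℕ) {L L' : Sk}, Step L L' →
    Relation.TransGen Step (skel ρ X L) (skel ρ X L') := by
  induction X with
  | var i => intro ρ L L' h; exact .single (.app₂ _ h)
  | app a b iha _ =>
    intro ρ L L' h
    exact ((iha ρ h).lift (fun z => Tm.app (Tm.app z _) L)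
      fun _ _ s => Step.app₁ _ (Step.app₁ _ s)).tail (.app₂ _ h)
  | lam a b _ ihb =>
    intro ρ L L' h
    exact (transGen_of_log (fun s => ihb _ s) (logOf_log (h.ren _) _
      (Steps.ren (skel_steps a ρ (.single h)) _) .refl)).lift
      (fun z => Tm.lam star (Tm.lam star z)) fun _ _ s => Step.lam₂ _ (Step.lam₂ _ s)
  | cSrt s =>
    intro ρ L L' h
    exact .single (.lam₂ _ (.lam₂ _ (.pi₁ _ (log0_log (h.ren _) _ _))))
  | cPi a b iha ihb =>
    intro ρ L L' h
    have h0 : Step (log0 (L.ren (· + 2)) (.var 1) (.var 0)) (log0 (L'.ren (· + 2)) (.var 1) (.var 0)) :=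
      log0_log (h.ren _) _ _
    exact ((transGen_of_log (fun s => ihb _ s) (logOf_log (h0.ren _) _
      (Steps.ren (skel_steps a _ (.single h0)) _) (Steps.ren (.single h0) _))).lift
      (fun z => Tm.lam star (Tm.lam star (Tm.pi star z)))
      fun _ _ s => Step.lam₂ _ (Step.lam₂ _ (Step.pi₂ _ s)))
  | mem r b ihr ihb => intro ρ L L' h; exact transGen_of_log (fun s => ihb _ s) (ihr ρ h)
  | base => intro ρ L L' h; exact .single h
  | push a n r c _ _ ihr _ =>
    intro ρ L L' h
    have h1 : Relation.TransGen Step ((skel ρ r L).ren Nat.succ) ((skel ρ r L').ren Nat.succ) :=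
      (ihr ρ h).lift _ fun _ _ s => s.ren _
    refine ((h1.lift (fun z => Tm.lam star (Tm.app z _))
      fun _ _ s => Step.lam₂ _ (Step.app₁ _ s))).trans_left ?_
    exact logOf_steps .refl (skel_steps a ρ (skel_steps r ρ (.single h))) .refl
      (skel_steps c ρ (.single h))
  | tSrt s => intro ρ L L' h; exact .single (.pi₁ _ h)
  | tPi a b iha ihb =>
    intro ρ L L' h
    exact (transGen_of_log (fun s => ihb _ s) (logOf_log (h.ren _) _
      (Steps.ren (skel_steps a ρ (.single h)) _) (Steps.ren (.single h) _))).lift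
      (fun z => Tm.pi star z) fun _ _ => Step.pi₂ _
  | el a ih =>
    intro ρ L L' h
    exact ((ih ρ h).lift (fun z => Tm.app (Tm.app z _) L)
      fun _ _ s => Step.app₁ _ (Step.app₁ _ s)).tail (.app₂ _ h)

/-- The log is an abstraction. -/
def IsLam (L : Sk) : Prop := ∃ b, L = .lam star b

theorem isLam_ren {L : Sk} (h : IsLam L) (f : ℕ → ℕ) : IsLam (L.ren f) := by
  obtain ⟨b, rfl⟩ := h; exact ⟨_, rfl⟩

theorem isLam_sub {L : Sk} (h : IsLam L) (τ : ℕ → Sk) : IsLam (L.sub τ) := by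
  obtain ⟨b, rfl⟩ := h; exact ⟨_, rfl⟩

theorem eta_of_lam {L : Sk} (h : IsLam L) : Steps (eta L) L := by
  obtain ⟨b, rfl⟩ := h
  refine .single (.lam₂ _ ?_)
  have e := Step.beta (star : Sk) (b.ren (upr Nat.succ)) (.var 0)
  have e2 : (b.ren (upr Nat.succ)).sub (inst (.var 0)) = b := by
    rw [sub_ren]
    conv_rhs => rw [← sub_var b]
    congr 1; funext i; cases i <;> rfl
  rw [e2] at e
  exact e

/-- The substitution `τ` turns variables into skeletons that compute like those of `σ`. -/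
def Tracks (ρ ρ' : ℕ → ℕ) (τ : ℕ → Sk) (σ : ℕ → De S .tm) : Prop :=
  ∀ i (g : ℕ → ℕ) L, IsLam L → Steps (.app ((τ (ρ i)).ren g) L) (skel (g ∘ ρ') (σ i) L)

theorem Tracks.shift {ρ ρ' : ℕ → ℕ} {τ : ℕ → Sk} {σ : ℕ → De S .tm} (h : Tracks ρ ρ' τ σ) :
    Tracks (fun i => ρ i + 1) (fun i => ρ' i + 1) (ups τ) σ := fun i g L hL => by
  have := h i (g ∘ Nat.succ) L hL
  rw [← ren_ren] at this
  exact this

theorem Tracks.keep {ρ ρ' : ℕ → ℕ} {τ : ℕ → Sk} {σ : ℕ → De S .tm} (h : Tracks ρ ρ' τ σ) :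
    Tracks (upr ρ) (upr ρ') (ups τ) (dups σ) := by
  intro i g L hL
  cases i with
  | zero => exact .refl
  | succ i =>
    have := h i (g ∘ Nat.succ) L hL
    rw [← ren_ren] at this
    simpa [upr, ups, dups, skel_deren, Function.comp_def] using this

theorem isLam_skel : ∀ (r : De S .rec_) (ρ : ℕ → ℕ) {L : Sk}, IsLam L → IsLam (skel ρ r L)
  | .base, _, _, h => h
  | .push _ _ _ _, _, _, _ => ⟨_, rfl⟩

theorem skel_sub {k : Cat} (X : De S k) : ∀ (ρ ρ' : ℕ → ℕ) (τ : ℕ → Sk) (σ : ℕ → De S .tm)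
    (L : Sk), Tracks ρ ρ' τ σ → IsLam L →
    Steps ((skel ρ X L).sub τ) (skel ρ' (X.sub σ) (L.sub τ)) := by
  induction X with
  | var i =>
    intro ρ ρ' τ σ L h hL
    simpa [skel, Tm.sub, De.sub, ren_id] using h i id (L.sub τ) (isLam_sub hL τ)
  | app a b iha ihb =>
    intro ρ ρ' τ σ L h hL
    simp only [skel, Tm.sub, De.sub]
    refine Steps.app₁ _ ((Steps.app₁ _ (iha ρ ρ' τ σ L h hL)).trans
      (Steps.app₂ _ (Steps.lam₂ _ ?_)))
    exact ihb _ _ _ _ (eta (.var 0)) h.shift ⟨_, rfl⟩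
  | lam a b iha ihb =>
    intro ρ ρ' τ σ L h hL
    have h1 : Tracks (lmap ρ) (lmap ρ') (ups (ups τ)) (dups σ) := by
      intro i g L' hL'
      cases i with
      | zero => exact .refl
      | succ i =>
        have := h i (g ∘ (· + 2)) L' hL'
        rw [← ren_ren] at this
        simpa [lmap, ups, dups, skel_deren, ren_ren, Function.comp_def] using this
    simp only [skel, Tm.sub, De.sub]
    refine Steps.lam₂ _ (Steps.lam₂ _ ((ihb _ _ _ _ _ h1 ⟨_, rfl⟩).trans (skel_steps _ _ ?_)))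
    simp only [logOf, Tm.sub, node_sub, succ_sub, two_sub, ups]
    exact logOf_steps .refl (Steps.ren (iha ρ ρ' τ σ L h hL) _) .refl .refl
  | cSrt s =>
    intro ρ ρ' τ σ L h hL
    simp only [skel, Tm.sub, De.sub, node_sub, log0_sub, two_sub, ups]
    exact .refl
  | cPi a b iha ihb =>
    intro ρ ρ' τ σ L h hL
    simp only [skel, Tm.sub, De.sub]
    have e : (log0 (L.ren (· + 2)) (.var 1) (.var 0)).sub (ups (ups τ)) =
        log0 ((L.sub τ).ren (· + 2)) (.var 1) (.var 0) := by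
      simp only [log0_sub, two_sub, Tm.sub, ups]; rfl
    have hl : IsLam (logOf ((log0 (L.ren (· + 2)) (.var 1) (.var 0)).ren Nat.succ)
        ((skel (fun i => ρ i + 2) a (log0 (L.ren (· + 2)) (.var 1) (.var 0))).ren Nat.succ) (.var 0)
        ((log0 (L.ren (· + 2)) (.var 1) (.var 0)).ren Nat.succ)) := ⟨_, rfl⟩
    have hb := ihb _ _ _ _ _ h.shift.shift.keep hl
    have ha := iha _ _ _ _ (log0 (L.ren (· + 2)) (.var 1) (.var 0)) h.shift.shift ⟨_, rfl⟩
    rw [e] at ha
    refine Steps.lam₂ _ (Steps.lam₂ _ (Steps.pi₂ _ (hb.trans (skel_steps _ _ ?_))))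
    rw [logOf_sub, succ_sub, succ_sub, e]
    exact logOf_steps .refl (Steps.ren ha _) .refl .refl
  | mem r b ihr ihb =>
    intro ρ ρ' τ σ L h hL
    exact (ihb ρ ρ' τ σ _ h (isLam_skel r ρ hL)).trans (skel_steps _ _ (ihr ρ ρ' τ σ L h hL))
  | base => intro ρ ρ' τ σ L h hL; exact .refl
  | push a n r c iha ihn ihr ihc =>
    intro ρ ρ' τ σ L h hL
    simp only [skel, De.sub]
    rw [logOf_sub]
    have hr := ihr ρ ρ' τ σ L h hL
    exact logOf_steps hr ((iha ρ ρ' τ σ _ h (isLam_skel r ρ hL)).trans (skel_steps _ _ hr))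
      (Steps.lam₂ _ (ihn _ _ _ _ (eta (.var 0)) h.shift ⟨_, rfl⟩)) (ihc ρ ρ' τ σ L h hL)
  | tSrt s => intro ρ ρ' τ σ L h hL; simp only [skel, node_sub, De.sub, Tm.sub]; exact .refl
  | tPi a b iha ihb =>
    intro ρ ρ' τ σ L h hL
    have hl : IsLam (logOf (L.ren Nat.succ) ((skel ρ a L).ren Nat.succ) (.var 0) (L.ren Nat.succ)) :=
      ⟨_, rfl⟩
    refine Steps.pi₂ _ ((ihb _ _ _ _ _ h.keep hl).trans (skel_steps _ _ ?_))
    rw [logOf_sub, succ_sub, succ_sub]
    exact logOf_steps .refl (Steps.ren (iha ρ ρ' τ σ L h hL) _) .refl .refl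
  | el a ih =>
    intro ρ ρ' τ σ L h hL
    exact Steps.app₁ _ (Steps.app₁ _ (ih ρ ρ' τ σ L h hL))

/-- Put one record below another. -/
def comp : De S .rec_ → De S .rec_ → De S .rec_
  | .base, q => q
  | .push A n r c, q => .push A n (comp r q) (comp c q)

theorem skel_comp : ∀ (r q : De S .rec_) (ρ : ℕ → ℕ) (L : Sk),
    skel ρ (comp r q) L = skel ρ r (skel ρ q L)
  | .base, q, ρ, L => by simp only [comp, skel]
  | .push A n r c, q, ρ, L => by simp only [comp, skel, skel_comp r, skel_comp c]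

theorem skel_beta (A : De S .ty) (b a : De S .tm) (r : De S .rec_) (ρ : ℕ → ℕ) {L : Sk}
    (hL : IsLam L) :
    Relation.TransGen Step
      (.app (.app (skel ρ (.lam A b) (skel ρ r L)) (.lam star (skel (fun i => ρ i + 1) a (eta (.var 0))))) L)
      (skel ρ (.mem (.push A a r .base) (b.sub (dinst a))) L) := by
  simp only [skel]
  set â : Sk := .lam star (skel (fun i => ρ i + 1) a (eta (.var 0))) with hâ
  refine Relation.TransGen.head' (.app₁ _ (.beta _ _ _))
    (Relation.ReflTransGen.head (.beta _ _ _) ?_)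
  rw [sub_sub]
  set τ : ℕ → Sk := fun i => (ups (inst â) i).sub (inst L) with hτ
  have t0 : τ 0 = L := rfl
  have t1 : τ 1 = â := inst_succ _ _
  have t2 : τ ∘ (· + 2) = Tm.var := by funext i; rfl
  have h : Tracks (lmap ρ) ρ τ (dinst a) := by
    intro i g L' hL'
    cases i with
    | zero =>
      simp only [lmap, t1, dinst, hâ, Tm.ren]
      refine Relation.ReflTransGen.head (.beta _ _ _) ?_
      rw [sub_ren, skel_map a _ (g ∘ ρ) _ _ fun i => by simp [upr, inst], eta_sub]
      exact skel_steps a _ (eta_of_lam hL')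
    | succ i =>
      have : τ (ρ i + 2) = .var (ρ i) := rfl
      simp only [lmap, this, dinst]
      exact .refl
  refine (skel_sub b _ ρ τ (dinst a) _ h ⟨_, rfl⟩).trans (skel_steps _ _ ?_)
  have e : (logOf ((skel ρ r L).ren (· + 2)) ((skel ρ A (skel ρ r L)).ren (· + 2)) (.var 1)
      (.var 0)).sub τ = logOf (skel ρ r L) (skel ρ A (skel ρ r L)) â L := by
    rw [logOf_sub]; simp only [sub_ren, t2, sub_var, Tm.sub, t0, t1]
  exact e ▸ .refl

theorem skel_redex : ∀ (f a : De S .tm) (r : De S .rec_) (A b : Tm S), f.strip = .lam A b →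
    ∃ X' : De S .tm, X'.strip = b.sub (inst a.strip) ∧
      ∀ ρ L, IsLam L → Relation.TransGen Step
        (.app (.app (skel ρ f (skel ρ r L)) (.lam star (skel (fun i => ρ i + 1) a (eta (.var 0))))) L)
        (skel ρ X' L)
  | .lam A0 b0, a, r, A, b, h => by
    cases h
    refine ⟨.mem (.push A0 a r .base) (b0.sub (dinst a)), ?_,
      fun ρ L hL => skel_beta A0 b0 a r ρ hL⟩
    simp only [De.strip, strip_sub b0 (by simp)]
    congr 1; funext i; cases i <;> rfl
  | .mem r0 f0, a, r, A, b, h => by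
    obtain ⟨X', e, hs⟩ := skel_redex f0 a (comp r0 r) A b h
    refine ⟨X', e, fun ρ L hL => ?_⟩
    have := hs ρ L hL
    rw [skel_comp] at this
    exact this
  | .var i, a, _, A, b, h => by cases h
  | .app x y, a, _, A, b, h => by cases h
  | .cSrt s, a, _, A, b, h => by cases h
  | .cPi x y, a, _, A, b, h => by cases h

theorem log_congr {k : Cat} (b : De S k) (ρ : ℕ → ℕ) {p q : Sk}
    (h : Relation.TransGen Step p q) (L x c : Sk) :
    Relation.TransGen Step (skel ρ b (logOf L (p.ren Nat.succ) x c))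
      (skel ρ b (logOf L (q.ren Nat.succ) x c)) :=
  transGen_of_log (fun s => skel_log b _ s) (h.lift (fun z => logOf L (z.ren Nat.succ) x c)
    fun _ _ s => .lam₂ _ (.app₂ _ (.pi₁ _ ((s.ren _).ren _))))

/-- Every source step is at least one skeleton step. -/
theorem simulate {k : Cat} (X : De S k) : k ≠ .rec_ → ∀ {M' : Tm S}, Step X.strip M' →
    ∃ X' : De S k, X'.strip = M' ∧
      ∀ ρ L, IsLam L → Relation.TransGen Step (skel ρ X L) (skel ρ X' L) := by
  induction X with
  | var i => intro _ M' h; cases h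
  | cSrt s => intro _ M' h; cases h
  | tSrt s => intro _ M' h; cases h
  | base => intro hk; exact absurd rfl hk
  | push => intro hk; exact absurd rfl hk
  | app f a ihf iha =>
    intro _ M' h
    generalize hsrc : (De.app f a).strip = Y at h
    cases h with
    | beta A b x =>
      simp only [De.strip, Tm.app.injEq] at hsrc
      obtain ⟨hf, rfl⟩ := hsrc
      exact skel_redex f a .base A b hf
    | app₁ b h =>
      simp only [De.strip, Tm.app.injEq] at hsrc
      obtain ⟨rfl, rfl⟩ := hsrc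
      obtain ⟨f', e, hs⟩ := ihf (by simp) h
      exact ⟨.app f' a, by simp [De.strip, e], fun ρ L hL =>
        (hs ρ L hL).lift (fun z => Tm.app (Tm.app z _) L) fun _ _ s => .app₁ _ (.app₁ _ s)⟩
    | app₂ b h =>
      simp only [De.strip, Tm.app.injEq] at hsrc
      obtain ⟨rfl, rfl⟩ := hsrc
      obtain ⟨a', e, hs⟩ := iha (by simp) h
      exact ⟨.app f a', by simp [De.strip, e], fun ρ L _ =>
        (hs _ (eta (.var 0)) ⟨_, rfl⟩).lift
          (fun z => Tm.app (Tm.app (skel ρ f L) (.lam star z)) L)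
          fun _ _ s => .app₁ _ (.app₂ _ (.lam₂ _ s))⟩
    | _ => simp [De.strip] at hsrc
  | lam A b ihA ihb =>
    intro _ M' h
    cases h with
    | lam₁ _ h =>
      obtain ⟨A', e, hs⟩ := ihA (by simp) h
      refine ⟨.lam A' b, by simp [De.strip, e], fun ρ L hL => ?_⟩
      have key : ∀ {p q : Sk}, Relation.TransGen Step p q → Relation.TransGen Step
          (skel (lmap ρ) b (logOf (L.ren (· + 2)) (p.ren (· + 2)) (.var 1) (.var 0)))
          (skel (lmap ρ) b (logOf (L.ren (· + 2)) (q.ren (· + 2)) (.var 1) (.var 0))) := by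
        intro p q h1
        exact transGen_of_log (fun s => skel_log b _ s) (h1.lift
          (fun z => logOf (L.ren (· + 2)) (z.ren (· + 2)) (.var 1) (.var 0))
          fun _ _ s => .lam₂ _ (.app₂ _ (.pi₁ _ ((s.ren _).ren _))))
      exact (key (hs ρ L hL)).lift (fun z => Tm.lam star (Tm.lam star z))
        fun _ _ s => Step.lam₂ _ (Step.lam₂ _ s)
    | lam₂ _ h =>
      obtain ⟨b', e, hs⟩ := ihb (by simp) h
      exact ⟨.lam A b', by simp [De.strip, e], fun ρ L _ =>
        (hs _ _ ⟨_, rfl⟩).lift (fun z => Tm.lam star (Tm.lam star z))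
          fun _ _ s => Step.lam₂ _ (Step.lam₂ _ s)⟩
  | cPi A b ihA ihb =>
    intro _ M' h
    cases h with
    | pi₁ _ h =>
      obtain ⟨A', e, hs⟩ := ihA (by simp) h
      refine ⟨.cPi A' b, by simp [De.strip, e], fun ρ L _ => ?_⟩
      exact (log_congr b _ (hs _ (log0 (L.ren (· + 2)) (.var 1) (.var 0)) ⟨_, rfl⟩) _ _ _).lift
        (fun z => Tm.lam star (Tm.lam star (Tm.pi star z)))
        fun _ _ s => Step.lam₂ _ (Step.lam₂ _ (Step.pi₂ _ s))
    | pi₂ _ h =>
      obtain ⟨b', e, hs⟩ := ihb (by simp) h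
      exact ⟨.cPi A b', by simp [De.strip, e], fun ρ L _ =>
        (hs _ _ ⟨_, rfl⟩).lift
          (fun z => Tm.lam star (Tm.lam star (Tm.pi star z)))
          fun _ _ s => Step.lam₂ _ (Step.lam₂ _ (Step.pi₂ _ s))⟩
  | tPi A b ihA ihb =>
    intro _ M' h
    cases h with
    | pi₁ _ h =>
      obtain ⟨A', e, hs⟩ := ihA (by simp) h
      exact ⟨.tPi A' b, by simp [De.strip, e], fun ρ L hL =>
        (log_congr b _ (hs ρ L hL) _ _ _).lift (fun z => Tm.pi star z) fun _ _ => Step.pi₂ _⟩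
    | pi₂ _ h =>
      obtain ⟨b', e, hs⟩ := ihb (by simp) h
      exact ⟨.tPi A b', by simp [De.strip, e], fun ρ L hL =>
        (hs _ _ ⟨_, rfl⟩).lift (fun z => Tm.pi star z) fun _ _ => Step.pi₂ _⟩
  | el X ih =>
    intro _ M' h
    obtain ⟨X', e, hs⟩ := ih (by simp) h
    exact ⟨.el X', e, fun ρ L hL =>
      (hs ρ L hL).lift (fun z => Tm.app (Tm.app z star) L) fun _ _ s => .app₁ _ (.app₁ _ s)⟩
  | mem r b _ ihb =>
    intro _ M' h
    obtain ⟨b', e, hs⟩ := ihb (by simp) h
    exact ⟨.mem r b', e, fun ρ L hL => hs ρ _ (isLam_skel r ρ hL)⟩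

theorem node_good {a b : Sk} (ha : Good a) (hb : Good b) : Good (node a b) := .pi ha (hb.ren _)

theorem occ_node (k : ℕ) (a b : Sk) : occ k (node a b) = occ k a + occ k b := by
  simp [node, occ, occ_succ]

theorem eta_good {l : Sk} (h : Good l) : Good (eta l) ∧ ∀ k, occ k (eta l) = occ k l := by
  constructor
  · exact .lam (.app (h.ren _) (.var 0)) (by simp [occ])
  · intro k; simp [eta, occ, occ_succ]

theorem logOf_good {L a b c : Sk} (hL : Good L) (ha : Good a) (hb : Good b) (hc : Good c) :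
    Good (logOf L a b c) ∧ ∀ k, occ k (logOf L a b c) = occ k L + occ k a + occ k b + occ k c := by
  constructor
  · exact .lam (.app (hL.ren _) (node_good (ha.ren _) (node_good (hb.ren _)
      (node_good (hc.ren _) (.var 0))))) (by simp [occ, occ_node])
  · intro k; simp [logOf, occ, occ_node, occ_succ]; omega

theorem log0_good {L b c : Sk} (hL : Good L) (hb : Good b) (hc : Good c) :
    Good (log0 L b c) ∧ ∀ k, occ k (log0 L b c) = occ k L + occ k b + occ k c := by
  constructor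
  · exact .lam (.app (hL.ren _) (node_good (hb.ren _) (node_good (hc.ren _) (.var 0))))
      (by simp [occ, occ_node])
  · intro k; simp [log0, occ, occ_node, occ_succ]; omega

theorem occ_two (L : Sk) (k : ℕ) : occ (k + 2) (L.ren (· + 2)) = occ k L :=
  occ_ren L fun i => by simp

theorem skel_good {k : Cat} (X : De S k) : ∀ (ρ : ℕ → ℕ) {L : Sk}, Good L →
    Good (skel ρ X L) ∧ ∀ j, 0 < occ j L → 0 < occ j (skel ρ X L) := by
  induction X with
  | var i =>
    intro ρ L g
    exact ⟨.app (.var _) g, fun k hk => by simp only [skel, occ]; omega⟩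
  | app a b iha ihb =>
    intro ρ L g
    obtain ⟨g1, h1⟩ := iha ρ g
    obtain ⟨g2, h2⟩ := ihb (fun i => ρ i + 1) (eta_good (Good.var 0)).1
    refine ⟨.app (.app g1 (.lam g2 (h2 0 (by simp [(eta_good (Good.var 0)).2, occ])))) g,
      fun k hk => ?_⟩
    simp only [skel, occ]; omega
  | lam a b iha ihb =>
    intro ρ L g
    obtain ⟨g1, -⟩ := iha ρ g
    obtain ⟨gl, ol⟩ := logOf_good (g.ren (· + 2)) (g1.ren (· + 2)) (Good.var 1) (Good.var 0)
    obtain ⟨g2, h2⟩ := ihb (lmap ρ) gl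
    have z0 := h2 0 (by rw [ol]; simp [occ])
    have z1 := h2 1 (by rw [ol]; simp [occ])
    refine ⟨.lam (.lam g2 z0) (by simp only [occ, Nat.zero_add]; omega), fun k hk => ?_⟩
    have := h2 (k + 2) (by rw [ol, occ_two]; omega)
    simp only [skel, occ, Nat.add_assoc, Nat.reduceAdd]; omega
  | cSrt s =>
    intro ρ L g
    obtain ⟨gl, ol⟩ := log0_good (g.ren (· + 2)) (Good.var 1) (Good.var 0)
    refine ⟨.lam (.lam (node_good gl .srt) (by simp [occ_node, ol, occ]))
      (by simp [occ, occ_node, ol]), fun k hk => ?_⟩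
    simp only [skel, occ, occ_node, ol, Nat.add_assoc, Nat.reduceAdd, occ_two]; omega
  | cPi a b iha ihb =>
    intro ρ L g
    obtain ⟨gl, ol⟩ := log0_good (g.ren (· + 2)) (Good.var 1) (Good.var 0)
    obtain ⟨g1, -⟩ := iha (fun i => ρ i + 2) gl
    obtain ⟨gl2, ol2⟩ := logOf_good (gl.ren Nat.succ) (g1.ren Nat.succ) (Good.var 0) (gl.ren Nat.succ)
    obtain ⟨g2, h2⟩ := ihb (upr fun i => ρ i + 2) gl2
    have z0 := h2 1 (by rw [ol2, occ_succ, ol]; simp [occ])
    have z1 := h2 2 (by rw [ol2, occ_succ, ol]; simp [occ])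
    refine ⟨.lam (.lam (.pi .srt g2) (by simp [occ]; omega))
      (by simp [occ]; omega), fun k hk => ?_⟩
    have := h2 (k + 3) (by rw [ol2, occ_succ, ol, occ_two]; omega)
    simp only [skel, occ, Nat.add_assoc, Nat.reduceAdd]; omega
  | mem r b ihr ihb =>
    intro ρ L g
    obtain ⟨g1, h1⟩ := ihr ρ g
    obtain ⟨g2, h2⟩ := ihb ρ g1
    exact ⟨g2, fun k hk => h2 k (h1 k hk)⟩
  | base => intro ρ L g; exact ⟨g, fun k hk => hk⟩
  | push a n r c iha ihn ihr ihc =>
    intro ρ L g
    obtain ⟨g1, h1⟩ := ihr ρ g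
    obtain ⟨g2, h2⟩ := ihn (fun i => ρ i + 1) (eta_good (Good.var 0)).1
    obtain ⟨gl, ol⟩ := logOf_good g1 (iha ρ g1).1
      (Good.lam g2 (h2 0 (by simp [(eta_good (Good.var 0)).2, occ]))) (ihc ρ g).1
    refine ⟨gl, fun k hk => ?_⟩
    have := h1 k hk
    simp only [skel, ol]; omega
  | tSrt s =>
    intro ρ L g
    exact ⟨node_good g .srt, fun k hk => by simp only [skel, occ_node]; omega⟩
  | tPi a b iha ihb =>
    intro ρ L g
    obtain ⟨gl2, ol2⟩ := logOf_good (g.ren Nat.succ) ((iha ρ g).1.ren Nat.succ) (Good.var 0)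
      (g.ren Nat.succ)
    obtain ⟨g2, h2⟩ := ihb (upr ρ) gl2
    refine ⟨.pi .srt g2, fun k hk => ?_⟩
    have := h2 (k + 1) (by rw [ol2, occ_succ]; omega)
    simp only [skel, occ]; omega
  | el a ih =>
    intro ρ L g
    exact ⟨.app (.app (ih ρ g).1 .srt) g, fun k hk => by simp only [skel, occ]; omega⟩

/-- A source expression is strongly normalising when its skeleton has a normal form. -/
theorem acc_of_skel {k : Cat} (hk : k ≠ .rec_) (X : De S k) (ρ : ℕ → ℕ) {L : Sk} (gL : Good L)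
    (hL : IsLam L) (h : HasNormalForm (skel ρ X L)) :
    Acc (fun x y => Step y x) X.strip := by
  obtain ⟨n, hn, hnf⟩ := h
  have hacc := acc_transGen (acc_of_steps hn hnf (skel_good X ρ gL).1)
  suffices ∀ t, Acc (fun x y => Relation.TransGen Step y x) t →
      ∀ Y : De S k, skel ρ Y L = t → Acc (fun x y => Step y x) Y.strip from this _ hacc X rfl
  intro t ht
  induction ht with
  | intro t _ ih =>
    intro Y e
    refine ⟨_, fun M' hs => ?_⟩
    obtain ⟨Y', e', hs'⟩ := simulate Y hk hs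
    exact e' ▸ ih _ (e ▸ hs' ρ L hL) Y' rfl

end Vale.Agent.P340.Unit
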