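import Vale.Agent.P340.Unit.DTyped

/-!
The copy of a type without logs: one target variable for each source variable, applied to a
constant log. `tr` returns the value and the type read off it.
-/

namespace Vale.Agent.P340.Unit

open Vale.Agent.P340.Hub

universe u

variable {S : Type u}

theorem Conv.app {a a' b b' : Tm S} (ha : Conv a a') (hb : Conv b b') :
    Conv (.app a b) (.app a' b') :=
  .trans _ _ _ (ha.map fun s => .rel _ _ (.app₁ _ s)) (hb.map fun s => .rel _ _ (.app₂ _ s))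

theorem Conv.lam {a a' b b' : Tm S} (ha : Conv a a') (hb : Conv b b') :
    Conv (.lam a b) (.lam a' b') :=
  .trans _ _ _ (ha.map fun s => .rel _ _ (.lam₁ _ s)) (hb.map fun s => .rel _ _ (.lam₂ _ s))

theorem Conv.pi {a a' b b' : Tm S} (ha : Conv a a') (hb : Conv b b') :
    Conv (.pi a b) (.pi a' b') :=
  .trans _ _ _ (ha.map fun s => .rel _ _ (.pi₁ _ s)) (hb.map fun s => .rel _ _ (.pi₂ _ s))

theorem succ_sub' (t : Tm S) (τ : ℕ → Tm S) :
    (t.ren Nat.succ).sub (ups τ) = (t.sub τ).ren Nat.succ := by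
  rw [sub_ren, ren_sub]; rfl

/-- The type of the atom of logs; `m` counts the variables above the fixed declarations. -/
def qV (m : ℕ) : Tm S := .var (m + 4)

/-- The type of logs. -/
def oV (m : ℕ) : Tm S := .pi (qV m) ((qV m).ren Nat.succ)

/-- The atom of logs. -/
def q0V (m : ℕ) : Tm S := .var (m + 3)

/-- A constant log. -/
def konst (m : ℕ) (c : Tm S) : Tm S := .lam (qV m) (c.ren Nat.succ)

/-- The family of logs, at a constant log. -/
def dV (m : ℕ) (c : Tm S) : Tm S := .app (.var (m + 2)) (konst m c)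

/-- A code of the type `e`. -/
def code (m : ℕ) (e : Tm S) : Tm S :=
  .lam (dV m (q0V m)) (.lam (oV (m + 1)) ((e.ren Nat.succ).ren Nat.succ))

/-- The type read off a code. -/
def dec (m : ℕ) (c v : Tm S) : Tm S := .app (.app v (.var m)) (konst m c)

/-- The value and the type of an expression, with the variable map `f` and the constant `c`. -/
def tr : ℕ → (ℕ → ℕ) → Tm S → Tm S → Tm S × Tm S
  | m, f, c, .var i =>
    let v : Tm S := .app (.var (f i)) (konst m c)
    (v, dec m c v)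
  | m, _, c, .srt s =>
    let e : Tm S := .pi (dV m c) (.pi (oV (m + 1)) (.srt s))
    (code m e, e)
  | m, f, c, .app a b =>
    let v : Tm S := .app (.app (tr m f c a).1
      (.lam (oV m) (tr (m + 1) (Nat.succ ∘ f) (.app (.var 0) (c.ren Nat.succ)) b).1)) (konst m c)
    (v, dec m c v)
  | m, f, c, .lam a b =>
    let v : Tm S := .lam (.pi (oV m) ((tr m f (q0V m) a).2.ren Nat.succ))
      (.lam (oV (m + 1)) (tr (m + 2) (Nat.succ ∘ upr f) ((c.ren Nat.succ).ren Nat.succ) b).1)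
    (v, dec m c v)
  | m, f, c, .pi a b =>
    let e : Tm S := .pi (.pi (oV m) ((tr m f (q0V m) a).2.ren Nat.succ))
      (.pi (oV (m + 1)) ((tr (m + 1) (upr f) (c.ren Nat.succ) b).2.ren Nat.succ))
    (code m e, e)

/-- The fixed declarations are kept in place. -/
def Fix (τ : ℕ → Tm S) (m m' : ℕ) : Prop := ∀ j, τ (m + j) = .var (m' + j)

theorem Fix.up {τ : ℕ → Tm S} {m m' : ℕ} (h : Fix τ m m') : Fix (ups τ) (m + 1) (m' + 1) := by
  intro j
  rw [show m + 1 + j = m + j + 1 by omega, show m' + 1 + j = m' + j + 1 by omega]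
  simp [ups, h j, Tm.ren]

theorem Fix.zero {τ : ℕ → Tm S} {m m' : ℕ} (h : Fix τ m m') : τ m = .var m' := h 0

theorem qV_sub {τ : ℕ → Tm S} {m m' : ℕ} (h : Fix τ m m') : (qV m).sub τ = qV m' := h 4

theorem oV_sub {τ : ℕ → Tm S} {m m' : ℕ} (h : Fix τ m m') : (oV m).sub τ = oV m' := by
  simp only [oV, Tm.sub, succ_sub', qV_sub h]

theorem q0V_sub {τ : ℕ → Tm S} {m m' : ℕ} (h : Fix τ m m') : (q0V m).sub τ = q0V m' := h 3

theorem konst_sub {τ : ℕ → Tm S} {m m' : ℕ} (h : Fix τ m m') (c : Tm S) :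
    (konst m c).sub τ = konst m' (c.sub τ) := by
  simp only [konst, Tm.sub, succ_sub', qV_sub h]

theorem dV_sub {τ : ℕ → Tm S} {m m' : ℕ} (h : Fix τ m m') (c : Tm S) :
    (dV m c).sub τ = dV m' (c.sub τ) := by
  simp only [dV, Tm.sub, konst_sub h, h 2]

theorem code_sub {τ : ℕ → Tm S} {m m' : ℕ} (h : Fix τ m m') (e : Tm S) :
    (code m e).sub τ = code m' (e.sub τ) := by
  simp only [code, Tm.sub, succ_sub', dV_sub h, q0V_sub h, oV_sub h.up]

theorem dec_sub {τ : ℕ → Tm S} {m m' : ℕ} (h : Fix τ m m') (c v : Tm S) :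
    (dec m c v).sub τ = dec m' (c.sub τ) (v.sub τ) := by
  simp only [dec, Tm.sub, konst_sub h, h.zero]

theorem tr_map (M : Tm S) : ∀ (m m' : ℕ) (f f' : ℕ → ℕ) (τ : ℕ → Tm S) (c : Tm S),
    Fix τ m m' → (∀ i, τ (f i) = .var (f' i)) →
    (tr m f c M).1.sub τ = (tr m' f' (c.sub τ) M).1 ∧
      (tr m f c M).2.sub τ = (tr m' f' (c.sub τ) M).2 := by
  induction M with
  | var i =>
    intro m m' f f' τ c h hf
    constructor <;> simp only [tr, dec_sub h, Tm.sub, konst_sub h, hf]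
  | srt s =>
    intro m m' f f' τ c h hf
    constructor <;> simp only [tr, code_sub h, Tm.sub, dV_sub h, oV_sub h.up]
  | app a b iha ihb =>
    intro m m' f f' τ c h hf
    obtain ⟨ha, -⟩ := iha m m' f f' τ c h hf
    obtain ⟨hb, -⟩ := ihb (m + 1) (m' + 1) (Nat.succ ∘ f) (Nat.succ ∘ f') (ups τ)
      (.app (.var 0) (c.ren Nat.succ)) h.up (fun i => by simp [ups, hf, Tm.ren])
    have hb' : (tr (m + 1) (Nat.succ ∘ f) (.app (.var 0) (c.ren Nat.succ)) b).1.sub (ups τ) =
        (tr (m' + 1) (Nat.succ ∘ f') (.app (.var 0) ((c.sub τ).ren Nat.succ)) b).1 := by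
      rw [hb]; simp only [Tm.sub, succ_sub', ups]
    constructor <;> simp only [tr, dec_sub h, Tm.sub, konst_sub h, oV_sub h, ha, hb']
  | lam a b iha ihb =>
    intro m m' f f' τ c h hf
    obtain ⟨-, ha⟩ := iha m m' f f' τ (q0V m) h hf
    rw [q0V_sub h] at ha
    obtain ⟨hb, -⟩ := ihb (m + 2) (m' + 2) (Nat.succ ∘ upr f) (Nat.succ ∘ upr f') (ups (ups τ))
      ((c.ren Nat.succ).ren Nat.succ) h.up.up
      (fun i => by cases i <;> simp [ups, upr, hf, Tm.ren])
    simp only [succ_sub'] at hb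
    constructor <;> simp only [tr, dec_sub h, Tm.sub, succ_sub', oV_sub h, oV_sub h.up, ha, hb]
  | pi a b iha ihb =>
    intro m m' f f' τ c h hf
    obtain ⟨-, ha⟩ := iha m m' f f' τ (q0V m) h hf
    rw [q0V_sub h] at ha
    obtain ⟨-, hb⟩ := ihb (m + 1) (m' + 1) (upr f) (upr f') (ups τ) (c.ren Nat.succ) h.up
      (fun i => by cases i <;> simp [ups, upr, hf, Tm.ren])
    rw [succ_sub'] at hb
    constructor <;> simp only [tr, code_sub h, Tm.sub, succ_sub', oV_sub h, oV_sub h.up, ha, hb]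

theorem tr_ren (M : Tm S) (m m' : ℕ) (f g : ℕ → ℕ) (c : Tm S) (hg : ∀ j, g (m + j) = m' + j) :
    (tr m f c M).1.ren g = (tr m' (g ∘ f) (c.ren g) M).1 ∧
      (tr m f c M).2.ren g = (tr m' (g ∘ f) (c.ren g) M).2 := by
  simp only [ren_eq_sub _ g]
  exact tr_map M m m' f (g ∘ f) _ c (fun j => congrArg Tm.var (hg j)) fun i => rfl

theorem tr_src (M : Tm S) : ∀ (m : ℕ) (f h : ℕ → ℕ) (c : Tm S),
    tr m f c (M.ren h) = tr m (f ∘ h) c M := by
  induction M with
  | var i => intros; rfl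
  | srt s => intros; rfl
  | app a b iha ihb => intro m f h c; simp only [Tm.ren, tr, iha, ihb]; rfl
  | lam a b iha ihb =>
    intro m f h c
    simp only [Tm.ren, tr, iha, ihb]
    rw [show (Nat.succ ∘ upr f) ∘ upr h = Nat.succ ∘ upr (f ∘ h) by
      funext i; cases i <;> rfl]
  | pi a b iha ihb => intro m f h c; simp only [Tm.ren, tr, iha, ihb, upr_comp]

theorem dec_code (m : ℕ) (c e : Tm S) : Conv (dec m c (code m e)) e := by
  refine .trans _ _ _ (.rel _ _ (.app₁ _ (.beta _ _ _))) ?_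
  simp only [Tm.sub, succ_sub', inst_succ]
  refine .trans _ _ _ (.rel _ _ (.beta _ _ _)) ?_
  rw [inst_succ]
  exact .refl _

theorem dec_el (M : Tm S) (m : ℕ) (f : ℕ → ℕ) (c : Tm S) :
    Conv (dec m c (tr m f c M).1) (tr m f c M).2 := by
  cases M <;> first | exact .refl _ | exact dec_code _ _ _

theorem dec_cong {m : ℕ} {c v v' : Tm S} (h : Conv v v') : Conv (dec m c v) (dec m c v') :=
  Conv.app (Conv.app h (.refl _)) (.refl _)

theorem konst_app (m : ℕ) (c a : Tm S) : Step (.app (konst m c) a) c := by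
  have := Step.beta (qV m) (c.ren Nat.succ) a
  rwa [inst_succ] at this

theorem tr_cong (M : Tm S) : ∀ (m : ℕ) (f : ℕ → ℕ) {c c' : Tm S}, Conv c c' →
    Conv (tr m f c M).1 (tr m f c' M).1 ∧ Conv (tr m f c M).2 (tr m f c' M).2 := by
  have hk : ∀ (m : ℕ) {c c' : Tm S}, Conv c c' → Conv (konst m c) (konst m c') :=
    fun m c c' h => Conv.lam (.refl _) (Conv.ren h _)
  have hd : ∀ (m : ℕ) {c c' v v' : Tm S}, Conv c c' → Conv v v' →
      Conv (dec m c v) (dec m c' v') := fun m c c' v v' h hv => Conv.app (Conv.app hv (.refl _)) (hk m h)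
  have hcode : ∀ (m : ℕ) {e e' : Tm S}, Conv e e' → Conv (code m e) (code m e') :=
    fun m e e' h => Conv.lam (.refl _) (Conv.lam (.refl _) (Conv.ren (Conv.ren h _) _))
  induction M with
  | var i =>
    intro m f c c' h
    have h1 := Conv.app (.refl (Tm.var (f i))) (hk m h)
    exact ⟨h1, hd m h h1⟩
  | srt s =>
    intro m f c c' h
    have h1 : Conv (Tm.pi (dV m c) (.pi (oV (m + 1)) (.srt s)))
        (.pi (dV m c') (.pi (oV (m + 1)) (.srt s))) :=
      Conv.pi (Conv.app (.refl _) (hk m h)) (.refl _)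
    exact ⟨hcode m h1, h1⟩
  | app a b iha ihb =>
    intro m f c c' h
    have h1 := Conv.app (Conv.app (iha m f h).1 (Conv.lam (.refl (oV m))
      (ihb (m + 1) (Nat.succ ∘ f) (Conv.app (.refl (Tm.var 0)) (Conv.ren h Nat.succ))).1)) (hk m h)
    exact ⟨h1, hd m h h1⟩
  | lam a b _ ihb =>
    intro m f c c' h
    have h1 : Conv (tr m f c (.lam a b)).1 (tr m f c' (.lam a b)).1 :=
      Conv.lam (.refl _) (Conv.lam (.refl _)
        (ihb (m + 2) (Nat.succ ∘ upr f) (Conv.ren (Conv.ren h Nat.succ) Nat.succ)).1)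
    exact ⟨h1, hd m h h1⟩
  | pi a b _ ihb =>
    intro m f c c' h
    have h1 := Conv.pi (Conv.pi (.refl (oV m)) (.refl ((tr m f (q0V m) a).2.ren Nat.succ)))
      (Conv.pi (.refl (oV (m + 1))) (Conv.ren (ihb (m + 1) (upr f) (Conv.ren h Nat.succ)).2 Nat.succ))
    exact ⟨hcode m h1, h1⟩

/-- A target substitution that follows a source substitution. -/
def Follow (m m' : ℕ) (f f' : ℕ → ℕ) (τ σ : ℕ → Tm S) : Prop :=
  Fix τ m m' ∧ ∀ i (g : ℕ → ℕ) mm, (∀ j, g (m' + j) = mm + j) → ∀ c,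
    Conv (.app ((τ (f i)).ren g) (konst mm c)) (tr mm (g ∘ f') c (σ i)).1

theorem Follow.shift {m m' : ℕ} {f f' : ℕ → ℕ} {τ σ : ℕ → Tm S} (h : Follow m m' f f' τ σ) :
    Follow (m + 1) (m' + 1) (Nat.succ ∘ f) (Nat.succ ∘ f') (ups τ) σ := by
  refine ⟨h.1.up, fun i g mm hg c => ?_⟩
  have := h.2 i (g ∘ Nat.succ) mm (fun j => by
    simpa [show m' + 1 + j = m' + j + 1 by omega] using hg j) c
  rw [← ren_ren] at this
  exact this

theorem Follow.keep {m m' : ℕ} {f f' : ℕ → ℕ} {τ σ : ℕ → Tm S} (h : Follow m m' f f' τ σ) :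
    Follow (m + 1) (m' + 1) (upr f) (upr f') (ups τ) (ups σ) := by
  refine ⟨h.1.up, fun i g mm hg c => ?_⟩
  cases i with
  | zero => exact .refl _
  | succ i =>
    have := h.2 i (g ∘ Nat.succ) mm (fun j => by
      simpa [show m' + 1 + j = m' + j + 1 by omega] using hg j) c
    rw [← ren_ren] at this
    rw [show ups σ (i + 1) = (σ i).ren Nat.succ from rfl, tr_src]
    exact this

theorem Follow.keep₂ {m m' : ℕ} {f f' : ℕ → ℕ} {τ σ : ℕ → Tm S} (h : Follow m m' f f' τ σ) :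
    Follow (m + 2) (m' + 2) (Nat.succ ∘ upr f) (Nat.succ ∘ upr f') (ups (ups τ)) (ups σ) :=
  h.keep.shift

theorem tr_sub (M : Tm S) : ∀ (m m' : ℕ) (f f' : ℕ → ℕ) (τ σ : ℕ → Tm S) (c : Tm S),
    Follow m m' f f' τ σ →
    Conv ((tr m f c M).1.sub τ) (tr m' f' (c.sub τ) (M.sub σ)).1 ∧
      Conv ((tr m f c M).2.sub τ) (tr m' f' (c.sub τ) (M.sub σ)).2 := by
  induction M with
  | var i =>
    intro m m' f f' τ σ c h
    have h1 : Conv ((tr m f c (.var i)).1.sub τ) (tr m' f' (c.sub τ) (σ i)).1 := by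
      simp only [tr, Tm.sub, konst_sub h.1]
      have := h.2 i id m' (fun _ => rfl) (c.sub τ)
      rwa [ren_id] at this
    refine ⟨h1, ?_⟩
    show Conv ((dec m c (tr m f c (.var i)).1).sub τ) _
    rw [dec_sub h.1]
    exact .trans _ _ _ (dec_cong h1) (dec_el _ _ _ _)
  | srt s =>
    intro m m' f f' τ σ c h
    obtain ⟨e1, e2⟩ := tr_map (.srt s : Tm S) m m' (fun _ => m) (fun _ => m') τ c h.1
      (fun _ => h.1.zero)
    have r : ∀ f'', tr m f c (.srt s) = tr m f'' c (.srt s) := fun _ => rfl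
    rw [r (fun _ => m), e1, e2]
    exact ⟨.refl _, .refl _⟩
  | app a b iha ihb =>
    intro m m' f f' τ σ c h
    have hb := (ihb _ _ _ _ _ _ (.app (.var 0) (c.ren Nat.succ)) h.shift).1
    simp only [Tm.sub, succ_sub', ups] at hb
    have h1 : Conv ((tr m f c (.app a b)).1.sub τ) (tr m' f' (c.sub τ) ((Tm.app a b).sub σ)).1 := by
      simp only [tr, Tm.sub, konst_sub h.1, oV_sub h.1]
      exact Conv.app (Conv.app (iha m m' f f' τ σ c h).1 (Conv.lam (.refl _) hb)) (.refl _)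
    refine ⟨h1, ?_⟩
    show Conv ((dec m c (tr m f c (.app a b)).1).sub τ) _
    rw [dec_sub h.1]
    exact .trans _ _ _ (dec_cong h1) (dec_el _ _ _ _)
  | lam a b iha ihb =>
    intro m m' f f' τ σ c h
    have ha := (iha m m' f f' τ σ (q0V m) h).2
    rw [q0V_sub h.1] at ha
    have hb := (ihb _ _ _ _ _ _ ((c.ren Nat.succ).ren Nat.succ) h.keep₂).1
    simp only [succ_sub'] at hb
    have h1 : Conv ((tr m f c (.lam a b)).1.sub τ) (tr m' f' (c.sub τ) ((Tm.lam a b).sub σ)).1 := by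
      simp only [tr, Tm.sub, succ_sub', oV_sub h.1, oV_sub h.1.up]
      exact Conv.lam (Conv.pi (.refl _) (Conv.ren ha _)) (Conv.lam (.refl _) hb)
    refine ⟨h1, ?_⟩
    show Conv ((dec m c (tr m f c (.lam a b)).1).sub τ) _
    rw [dec_sub h.1]
    exact .trans _ _ _ (dec_cong h1) (dec_el _ _ _ _)
  | pi a b iha ihb =>
    intro m m' f f' τ σ c h
    have hb := (ihb _ _ _ _ _ _ (c.ren Nat.succ) h.keep).2
    rw [succ_sub'] at hb
    have ha := (iha m m' f f' τ σ (q0V m) h).2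
    rw [q0V_sub h.1] at ha
    have h2 := Conv.pi (Conv.pi (.refl (oV m')) (Conv.ren ha Nat.succ))
      (Conv.pi (.refl (oV (m' + 1))) (Conv.ren hb Nat.succ))
    simp only [tr, code_sub h.1, Tm.sub, succ_sub', oV_sub h.1, oV_sub h.1.up]
    exact ⟨Conv.lam (.refl _) (Conv.lam (.refl _) (Conv.ren (Conv.ren h2 _) _)), h2⟩

theorem tr_step {M M' : Tm S} (h : Step M M') : ∀ (m : ℕ) (f : ℕ → ℕ) (c : Tm S),
    Conv (tr m f c M).1 (tr m f c M').1 ∧ Conv (tr m f c M).2 (tr m f c M').2 := by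
  have both : ∀ {M M' : Tm S} {m : ℕ} {f : ℕ → ℕ} {c : Tm S},
      Conv (tr m f c M).1 (tr m f c M').1 →
      Conv (tr m f c M).1 (tr m f c M').1 ∧ Conv (tr m f c M).2 (tr m f c M').2 :=
    fun h => ⟨h, .trans _ _ _ (.symm _ _ (dec_el _ _ _ _))
      (.trans _ _ _ (dec_cong h) (dec_el _ _ _ _))⟩
  induction h with
  | beta A b a =>
    intro m f c
    apply both
    show Conv (.app (.app (.lam _ (.lam _ _)) _) _) _
    refine .trans _ _ _ (.rel _ _ (.app₁ _ (.beta _ _ _))) ?_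
    refine .trans _ _ _ (.rel _ _ (.beta _ _ _)) ?_
    rw [sub_sub]
    set arg : Tm S :=
      .lam (oV m) (tr (m + 1) (Nat.succ ∘ f) (.app (.var 0) (c.ren Nat.succ)) a).1 with harg
    set τ : ℕ → Tm S := fun i => (ups (inst arg) i).sub (inst (konst m c)) with hτ
    have t1 : τ 1 = arg := inst_succ _ _
    have t2 : τ ∘ Nat.succ ∘ Nat.succ = Tm.var := by funext i; rfl
    have hF : Fix τ (m + 2) m := fun j => by
      rw [show m + 2 + j = m + j + 1 + 1 by omega]; rfl
    have hh : Follow (m + 2) m (Nat.succ ∘ upr f) f τ (inst a) := by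
      refine ⟨hF, fun i g mm hg c' => ?_⟩
      cases i with
      | zero =>
        simp only [Function.comp, upr, t1, harg, Tm.ren]
        refine .trans _ _ _ (.rel _ _ (.beta _ _ _)) ?_
        rw [sub_ren]
        obtain ⟨e, -⟩ := tr_map a (m + 1) mm (Nat.succ ∘ f) (g ∘ f) (inst (konst mm c') ∘ upr g)
          (.app (.var 0) (c.ren Nat.succ))
          (fun j => by
            rw [show m + 1 + j = m + j + 1 by omega]; simp [upr, inst, hg j])
          (fun i => by simp [upr, inst])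
        rw [e]
        refine (tr_cong a _ _ ?_).1
        exact .rel _ _ (konst_app _ _ _)
      | succ i => exact .refl _
    have := (tr_sub b (m + 2) m _ f τ (inst a) ((c.ren Nat.succ).ren Nat.succ) hh).1
    rw [ren_ren, sub_ren, t2, sub_var] at this
    rwa [ren_ren]
  | app₁ b _ ih =>
    intro m f c; exact both (Conv.app (Conv.app (ih m f c).1 (.refl _)) (.refl _))
  | app₂ a _ ih =>
    intro m f c
    exact both (Conv.app (Conv.app (.refl _) (Conv.lam (.refl _) (ih _ _ _).1)) (.refl _))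
  | lam₁ b _ ih =>
    intro m f c
    exact both (Conv.lam (Conv.pi (.refl _) (Conv.ren (ih _ _ _).2 _)) (.refl _))
  | lam₂ a _ ih =>
    intro m f c
    exact both (Conv.lam (.refl _) (Conv.lam (.refl _) (ih _ _ _).1))
  | pi₁ b _ ih =>
    intro m f c
    have h2 := Conv.pi (Conv.pi (.refl (oV m)) (Conv.ren (ih m f (q0V m)).2 Nat.succ)) (.refl
      (Tm.pi (oV (m + 1)) ((tr (m + 1) (upr f) (c.ren Nat.succ) b).2.ren Nat.succ)))
    exact ⟨Conv.lam (.refl _) (Conv.lam (.refl _) (Conv.ren (Conv.ren h2 _) _)), h2⟩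
  | pi₂ a _ ih =>
    intro m f c
    have h2 := Conv.pi (.refl (Tm.pi (oV m) ((tr m f (q0V m) a).2.ren Nat.succ)))
      (Conv.pi (.refl (oV (m + 1))) (Conv.ren (ih (m + 1) (upr f) (c.ren Nat.succ)).2 Nat.succ))
    exact ⟨Conv.lam (.refl _) (Conv.lam (.refl _) (Conv.ren (Conv.ren h2 _) _)), h2⟩

theorem tr_conv {M M' : Tm S} (h : Conv M M') (m : ℕ) (f : ℕ → ℕ) (c : Tm S) :
    Conv (tr m f c M).1 (tr m f c M').1 ∧ Conv (tr m f c M).2 (tr m f c M').2 :=
  ⟨h.map fun s => (tr_step s m f c).1, h.map fun s => (tr_step s m f c).2⟩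

end Vale.Agent.P340.Unit
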