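import Vale.Agent.P340.Unit.Logs

/-!
The memory translation of derivable judgments and the normalisation theorem.
-/

namespace Vale.Agent.P340.Unit

open Vale.Agent.P340.Hub

universe u

variable {S : Type u} {Ax : S → S → Prop} {Ru : S → S → S → Prop} {o : S}

/-- A judgment can be translated as a value above any families. -/
def OkP (Ax : S → S → Prop) (Ru : S → S → S → Prop) (o : S) (Γ : List (Tm S)) (M A : Tm S) :
    Prop :=
  ∀ R, Wf Ax Ru (R ++ baseCtx o) →
    ∃ E, Wf Ax Ru ((E ++ R) ++ baseCtx o) ∧ OutP Ax Ru o (E ++ R) Γ M A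

/-- A judgment can be translated as a type above any families. -/
def OkE (Ax : S → S → Prop) (Ru : S → S → S → Prop) (o : S) (Γ : List (Tm S)) (M : Tm S) (s : S) :
    Prop :=
  ∀ R, Wf Ax Ru (R ++ baseCtx o) →
    ∃ E, Wf Ax Ru ((E ++ R) ++ baseCtx o) ∧ OutE Ax Ru o (E ++ R) Γ M s

theorem comb_at (X : Tm S) {m m' : ℕ} (g : ℕ → ℕ) (c : Tm S) (hg : RFix g m m') :
    ∃ τ : ℕ → Tm S, Fix τ (m + 1) m' ∧ τ 0 = c ∧ (∀ i, τ (i + 1) = .var (g i)) ∧
      ((X.ren (upr Nat.succ)).sub (inst (sig m))).sub τ =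
        (X.ren (upr g)).sub (inst (konst m' c)) := by
  refine ⟨fun | 0 => c | i + 1 => .var (g i), ?_, rfl, fun _ => rfl, ?_⟩
  · intro j
    rw [show m + 1 + j = m + j + 1 by omega]
    exact congrArg Tm.var (hg j)
  · rw [sub_sub, sub_ren, sub_ren]
    congr 1; funext i
    cases i with
    | zero =>
      refine (konst_sub (m' := m') ?_ _).trans rfl
      intro j
      rw [show m + 1 + j = m + j + 1 by omega]
      exact congrArg Tm.var (hg j)
    | succ i => rfl

theorem conv_at₁ {X M : Tm S} {m m' : ℕ} (h : Conv ((X.ren (upr Nat.succ)).sub (inst (sig m)))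
      (tr (m + 1) Nat.succ (.var 0) M).1) (g : ℕ → ℕ) (c : Tm S) (hg : RFix g m m') :
    Conv ((X.ren (upr g)).sub (inst (konst m' c))) (tr m' g c M).1 := by
  obtain ⟨τ, hτ, h0, hs, e⟩ := comb_at X g c hg
  have := Conv.sub h τ
  rw [e, (tr_map M _ _ Nat.succ g τ _ hτ hs).1] at this
  simpa [Tm.sub, h0] using this

theorem conv_at₂ {X M : Tm S} {m m' : ℕ} (h : Conv ((X.ren (upr Nat.succ)).sub (inst (sig m)))
      (tr (m + 1) Nat.succ (.var 0) M).2) (g : ℕ → ℕ) (c : Tm S) (hg : RFix g m m') :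
    Conv ((X.ren (upr g)).sub (inst (konst m' c))) (tr m' g c M).2 := by
  obtain ⟨τ, hτ, h0, hs, e⟩ := comb_at X g c hg
  have := Conv.sub h τ
  rw [e, (tr_map M _ _ Nat.succ g τ _ hτ hs).2] at this
  simpa [Tm.sub, h0] using this

theorem rfix_off (E R Γ : List (Tm S)) :
    RFix (lift Γ.length E.length) (off R Γ) (off (E ++ R) Γ) := by
  intro j
  simp only [lift]
  split_ifs with h <;> simp only [off, List.length_append] at * <;> omega

theorem UnitAt.log_wf (H : UnitAt Ax Ru o) {R Γ : List (Tm S)} {M A : Tm S}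
    (h : DTyped Ax Ru Γ M A) (wR : Wf Ax Ru (R ++ baseCtx o)) :
    Based Ax Ru o (ctx o R Γ) (off R Γ) ∧
      Based Ax Ru o (oV (off R Γ) :: ctx o R Γ) (off R Γ + 1) := by
  have b := ctx_based H (H.pure h R wR).1
  exact ⟨b, b.bo H⟩

theorem UnitAt.liftP (H : UnitAt Ax Ru o) {E R Γ : List (Tm S)} {M A : Tm S}
    (hM : DTyped Ax Ru Γ M A) (wR : Wf Ax Ru ((E ++ R) ++ baseCtx o))
    (h : OutP Ax Ru o R Γ M A) : OutP Ax Ru o (E ++ R) Γ M A := by
  obtain ⟨X, d, hX, ed, eX, cX⟩ := h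
  have hf := rfix_off E R Γ
  have hr := (renOK_lift (o := o) E R hM.wf).up (oV (off R Γ))
  rw [oV_ren hf] at hr
  refine ⟨X.ren (upr (lift Γ.length E.length)), d, ?_, ed, ?_, ?_⟩
  · have := hX.ren hr (H.log_wf hM wR).2.wf
    rw [ren_ren] at this
    rw [show upr (lift Γ.length E.length) ∘ Nat.succ = Nat.succ ∘ lift Γ.length E.length from rfl,
      ← ren_ren] at this
    have eA : (el (off R Γ) A).ren (lift Γ.length E.length) = el (off (E ++ R) Γ) A := by
      rcases hM.correct with ⟨s, rfl⟩ | ⟨s, hs⟩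
      · rw [el_srt_ren hf]; rfl
      · simp only [off, List.length_append]; exact el_lift hs.bound _ _
    rwa [eA] at this
  · have := eX.ren (Θ' := push .L (Theta Γ.length (E.length + R.length))) (ρ' := id)
      (f := upr (lift Γ.length E.length)) (g := id) (by
        intro i hi
        cases i with
        | zero => exact ⟨rfl, fun _ => rfl⟩
        | succ i =>
          obtain ⟨e1, e2⟩ := Theta_lift Γ.length R.length E.length i
          exact ⟨e1 hi, fun hk => by simp [upr, e2 hk]⟩)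
    rw [ren_id, ← List.length_append] at this
    exact this
  · have := conv_at₁ (m' := off (E ++ R) Γ + 1) cX (Nat.succ ∘ lift Γ.length E.length) (.var 0)
      (hf.comp (RFix.succ _))
    rw [tr_bound M Γ.length _ _ Nat.succ _ hM.bound (fun i hi => by simp [lift, hi])] at this
    rw [ren_ren, upr_comp]
    exact this

theorem UnitAt.liftE (H : UnitAt Ax Ru o) {E R Γ : List (Tm S)} {M : Tm S} {s : S}
    (hM : DTyped Ax Ru Γ M (.srt s)) (wR : Wf Ax Ru ((E ++ R) ++ baseCtx o))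
    (h : OutE Ax Ru o R Γ M s) : OutE Ax Ru o (E ++ R) Γ M s := by
  obtain ⟨X, d, hX, ed, eX, cX⟩ := h
  have hf := rfix_off E R Γ
  have hr := (renOK_lift (o := o) E R hM.wf).up (oV (off R Γ))
  rw [oV_ren hf] at hr
  refine ⟨X.ren (upr (lift Γ.length E.length)), d, hX.ren hr (H.log_wf hM wR).2.wf, ed, ?_, ?_⟩
  · have := eX.ren (Θ' := push .L (Theta Γ.length (E.length + R.length))) (ρ' := id)
      (f := upr (lift Γ.length E.length)) (g := id) (by
        intro i hi
        cases i with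
        | zero => exact ⟨rfl, fun _ => rfl⟩
        | succ i =>
          obtain ⟨e1, e2⟩ := Theta_lift Γ.length R.length E.length i
          exact ⟨e1 hi, fun hk => by simp [upr, e2 hk]⟩)
    rw [ren_id, ← List.length_append] at this
    exact this
  · have := conv_at₂ (m' := off (E ++ R) Γ + 1) cX (Nat.succ ∘ lift Γ.length E.length) (.var 0)
      (hf.comp (RFix.succ _))
    rw [tr_bound M Γ.length _ _ Nat.succ _ hM.bound (fun i hi => by simp [lift, hi])] at this
    rw [ren_ren, upr_comp]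
    exact this

/-- A value of a sort gives a type. -/
theorem UnitAt.outEl (H : UnitAt Ax Ru o) {R Γ : List (Tm S)} {M : Tm S} {s : S}
    (hM : DTyped Ax Ru Γ M (.srt s)) (wR : Wf Ax Ru (R ++ baseCtx o))
    (h : OutP Ax Ru o R Γ M (.srt s)) : OutE Ax Ru o R Γ M s := by
  obtain ⟨X, d, hX, ed, eX, cX⟩ := h
  obtain ⟨-, b⟩ := H.log_wf hM wR
  rw [el_srt_ren (RFix.succ _)] at hX
  refine ⟨.app (.app X (.var (off R Γ + 1))) (.var 0), .el d, ?_, ed, ?_, ?_⟩
  · have h1 := Hub.Typed.app hX (b.w0.typed b.wf)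
    simp only [Tm.sub, oV_sub (fix_inst (off R Γ + 1) _)] at h1
    have h0 := (Look.zero (Γ := ctx o R Γ) (A := oV (off R Γ))).typed b.wf
    rw [oV_ren (RFix.succ _)] at h0
    exact Hub.Typed.app h1 h0
  · exact Er.cApp (Er.vApp eX (Er.zero
      (show push Kd.L (Theta Γ.length R.length) (off R Γ + 1) = .K0 from Theta_w0 _ _)))
      (Er.var (i := 0) rfl (by trivial))
  · refine .trans _ _ _ ?_ (dec_el M _ _ _)
    exact Conv.app (Conv.app cX (.refl _)) (.refl _)

/-- The code of a decorated type. -/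
def CodeOf (d' : De S .tm) (d : De S .ty) : Prop :=
  ∀ (ρ : ℕ → ℕ) (L : Sk), skel ρ d' L =
    .lam star (.lam star (skel (fun i => ρ i + 2) d (log0 (L.ren (· + 2)) (.var 1) (.var 0))))

/-- The translation of a sort or a product, which may also be coded. -/
def OutF (Ax : S → S → Prop) (Ru : S → S → S → Prop) (o : S) (R Γ : List (Tm S)) (M : Tm S)
    (s : S) : Prop :=
  ∃ (X : Tm S) (d : De S .ty) (d' : De S .tm),
    Typed Ax Ru (oV (off R Γ) :: ctx o R Γ) X (.srt s) ∧ d.strip = M ∧ d'.strip = M ∧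
    CodeOf d' d ∧ Er (push .L (Theta Γ.length R.length)) id .V X (skel Nat.succ d (.var 0)) ∧
    Conv ((X.ren (upr Nat.succ)).sub (inst (sig (off R Γ))))
      (tr (off R Γ + 1) Nat.succ (.var 0) M).2

theorem OutF.outE {R Γ : List (Tm S)} {M : Tm S} {s : S} (h : OutF Ax Ru o R Γ M s) :
    OutE Ax Ru o R Γ M s := by
  obtain ⟨X, d, _, hX, ed, _, _, eX, cX⟩ := h
  exact ⟨X, d, hX, ed, eX, cX⟩

theorem sortE (H : UnitAt Ax Ru o) {R : List (Tm S)} {s t : S} (h : Ax s t)
    (wR : Wf Ax Ru (R ++ baseCtx o)) : OutF Ax Ru o R [] (.srt s) t := by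
  have b0 := ctx_based H (R := R) (Γ := []) (by simpa [ctx, c1] using wR)
  have b := b0.bo H
  have h0 := (Look.zero (Γ := ctx o R []) (A := oV (off R []))).typed b.wf
  rw [oV_ren (RFix.succ _)] at h0
  have hd : Typed Ax Ru (oV (off R []) :: ctx o R [])
      (.app (.var (off R [] + 1 + 2)) (.var 0)) (.srt o) := Hub.Typed.app (b.d.typed b.wf) h0
  have b1 := b.cons hd
  refine ⟨.pi (.app (.var (off R [] + 1 + 2)) (.var 0)) (.pi (oV (off R [] + 1 + 1)) (.srt s)),
    .tSrt s, .cSrt s, ?_, rfl, rfl, fun _ _ => rfl, ?_, ?_⟩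
  · exact .prod hd (.prod (b1.oT H) ((b1.bo H).wf.axiom_sort h) (H.inn t)) (H.inn t)
  · exact Er.sort (show push Kd.L (Theta 0 R.length) (off R [] + 1 + 2) = .D by
      simpa [push, off] using Theta_D 0 R.length) (Er.var (i := 0) rfl (by trivial))
  · have hF : Fix (inst (sig (off R [])) : ℕ → Tm S) (off R [] + 1 + 1) (off R [] + 1) :=
      fix_inst _ _
    have hR := (RFix.succ (off R [])).up
    simp only [Tm.ren, oV_ren hR.up, hR 2, Tm.sub, hF 2, oV_sub hF.up]
    exact .refl _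

/-- A type of a typed sort gives a value, its code. -/
theorem UnitAt.codeP (H : UnitAt Ax Ru o) {R Γ : List (Tm S)} {M : Tm S} {s t : S}
    (hM : DTyped Ax Ru Γ M (.srt s)) (hs : Ax s t) (wR : Wf Ax Ru (R ++ baseCtx o))
    (h : OutF Ax Ru o R Γ M s)
    (hM' : (tr (off R Γ + 1) Nat.succ (.var 0) M).1 =
      code (off R Γ + 1) (tr (off R Γ + 1) Nat.succ (.var 0) M).2) :
    OutP Ax Ru o R Γ M (.srt s) := by
  obtain ⟨X, d, d', hX, ed, ed', hd', eX, cX⟩ := h
  obtain ⟨-, b⟩ := H.log_wf hM wR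
  set m := off R Γ with hm
  have hS := b.sortT H hs b.q0T
  obtain ⟨_, _, _, _, q1, h1⟩ := hS.pi_inv rfl
  obtain ⟨_, _, _, _, q2, -⟩ := h1.pi_inv rfl
  have b2 := (b.cons q1).cons q2
  have b3 := b2.cons b2.qT
  set L0 : Tm S := .lam (qV (m + 3))
    (.app (.var 3) (.app (.app (.app (.var (m + 4 + 1)) (.var 2)) (.var 1)) (.var 0))) with hL0
  have hl : ∀ {i A}, Look (oV m :: ctx o R Γ) i A →
      Look (qV (m + 3) :: oV (m + 1 + 1) :: dV (m + 1) (q0V (m + 1)) :: oV m :: ctx o R Γ) (i + 3)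
        (((A.ren Nat.succ).ren Nat.succ).ren Nat.succ) :=
    fun h => .succ (.succ (.succ h))
  have h3 := (hl (Look.zero (Γ := ctx o R Γ) (A := oV m))).typed b3.wf
  simp only [oV_ren (RFix.succ _)] at h3
  have h2 := (Look.succ (A := qV (m + 3)) (Look.succ (A := oV (m + 1 + 1))
    (Look.zero (Γ := oV m :: ctx o R Γ) (A := dV (m + 1) (q0V (m + 1)))))).typed b3.wf
  simp only [dV_ren (RFix.succ _), q0V_ren (RFix.succ _)] at h2
  have h1' := (Look.succ (A := qV (m + 3))
    (Look.zero (Γ := dV (m + 1) (q0V (m + 1)) :: oV m :: ctx o R Γ) (A := oV (m + 1 + 1)))).typed b3.wf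
  simp only [oV_ren (RFix.succ _)] at h1'
  have h0 := (Look.zero (A := qV (m + 3))
    (Γ := oV (m + 1 + 1) :: dV (m + 1) (q0V (m + 1)) :: oV m :: ctx o R Γ)).typed b3.wf
  rw [qV_ren (RFix.succ _)] at h0
  have hin := Based.logApp h3 (Based.chainT (b3.g0.typed b3.wf) h2 h1' h0)
  have hL : Typed Ax Ru (oV (m + 1 + 1) :: dV (m + 1) (q0V (m + 1)) :: oV m :: ctx o R Γ) L0
      (oV (m + 3)) := by
    refine .abs (s := o) ?_ (b2.oT H)
    rw [qV_ren (RFix.succ _)]
    exact hin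
  have hr := ((RenOK.succ (ctx o R Γ) (oV m)).comp
    (RenOK.succ _ (dV (m + 1) (q0V (m + 1))))).comp (RenOK.succ _ (oV (m + 1 + 1)))
  have hfix : RFix (Nat.succ ∘ Nat.succ ∘ Nat.succ) m (m + 3) :=
    ((RFix.succ m).comp (RFix.succ _)).comp (RFix.succ _)
  have hr' := hr.up (oV m)
  rw [oV_ren hfix] at hr'
  have hB := (hX.ren hr' (b2.bo H).wf).inst hL
  refine ⟨.lam (dV (m + 1) (q0V (m + 1))) (.lam (oV (m + 1 + 1))
    ((X.ren (upr (Nat.succ ∘ Nat.succ ∘ Nat.succ))).sub (inst L0))), d', ?_, ed', ?_, ?_⟩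
  · rw [el_srt_ren (RFix.succ _)]
    exact .abs (.abs hB h1) hS
  · rw [hd']
    have eL : Er (push .L (push .C (push .L (Theta Γ.length R.length)))) id .L L0
        (log0 (.var 2) (.var 1) (.var 0)) := by
      refine Er.lLam ?_
      rw [upr_id]
      refine Er.qApp (Er.var (i := 3) (ρ := id) (by simp [push, demote]) (by trivial)) ?_
      refine Er.log0 (Er.head ?_) (Er.var (i := 2) (by simp [push, demote]) (by trivial))
        (Er.var (i := 1) (by simp [push, demote]) (by trivial))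
        (Er.var (i := 0) (by simp [push]) (by trivial))
      have := Theta_g0 Γ.length R.length
      simp only [off] at hm
      rw [show m + 4 + 1 = Γ.length + R.length + 1 + 1 + 1 + 1 + 1 by omega]
      simp [push, demote, this]
    have eB := (eX.ren (Θ' := push .L (push .L (push .C (push .L (Theta Γ.length R.length)))))
      (ρ' := id) (f := upr (Nat.succ ∘ Nat.succ ∘ Nat.succ))
      (g := upr (Nat.succ ∘ Nat.succ ∘ Nat.succ)) (by
        intro i _
        cases i with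
        | zero => exact ⟨rfl, fun _ => rfl⟩
        | succ i => exact ⟨rfl, fun _ => rfl⟩)).sub (Θ' := push .L (push .C (push .L
          (Theta Γ.length R.length)))) (ρ' := id) (σ := inst L0)
          (τ := inst (log0 (.var 2) (.var 1) (.var 0)))
          (by
            have := SubEr.instKept (k := .L) (by trivial) eL
            rwa [upr_id] at this)
    rw [skel_ren, skel_map d _ (fun i => i + 1 + 2) (inst _) _ fun i => rfl] at eB
    refine Er.vLam ?_
    rw [upr_id]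
    refine Er.cLam ?_
    rw [upr_id]
    exact eB
  · have hR := (RFix.succ m).up
    have hF : Fix (inst (sig m) : ℕ → Tm S) (m + 1 + 1) (m + 1) := fix_inst _ _
    rw [hM']
    simp only [Tm.ren, Tm.sub, dV_ren hR, q0V_ren hR, oV_ren hR.up, dV_sub hF, q0V_sub hF,
      oV_sub hF.up, code]
    refine Conv.lam (.refl _) (Conv.lam (.refl _) ?_)
    rw [← (tr_ren M (m + 1) (m + 2) Nat.succ Nat.succ (.var 0) (RFix.succ _)).2.symm,
      (tr_ren M (m + 2) (m + 3) _ Nat.succ _ (RFix.succ _)).2]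
    have h3' : RFix (fun i => i + 3) m (m + 3) := fun j => by simp; omega
    refine .trans _ _ _ ?_ (conv_at₂ cX (fun i => i + 3) (.var 2) h3')
    simp only [Hub.sub_sub, sub_ren]
    refine Conv.subArg _ fun i => ?_
    cases i with
    | zero =>
      show Conv (((L0.ren (upr (upr (upr Nat.succ)))).sub (ups (ups (inst (sig m)))))) _
      rw [hL0]
      simp only [Tm.ren, Tm.sub, qV_ren hR.up.up, qV_sub hF.up.up]
      refine Conv.lam (.refl _) ?_
      show Conv (.app ((((sig m).ren Nat.succ).ren Nat.succ).ren Nat.succ) _) _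
      rw [sig, konst_ren (RFix.succ _), konst_ren (RFix.succ _), konst_ren (RFix.succ _)]
      exact .rel _ _ (konst_app _ _ _)
    | succ i => exact .refl _

theorem UnitAt.ok_var (H : UnitAt Ax Ru o) {Γ : List (Tm S)} {A : Tm S} {s : S}
    (hA : DTyped Ax Ru Γ A (.srt s)) : OkP Ax Ru o (A :: Γ) (.var 0) (A.ren Nat.succ) := by
  intro R wR
  obtain ⟨-, b⟩ := H.log_wf (DTyped.var hA) wR
  refine ⟨[], wR, .app (.var 1) (.var 0), .var 0, ?_, rfl, ?_, ?_⟩
  · have hz := (Look.succ (A := oV (off R (A :: Γ))) (Look.zero (Γ := ctx o R Γ)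
      (A := ctyp (off R Γ) (el (off R Γ) A)))).typed b.wf
    rw [ctyp_ren (RFix.succ _), ctyp_ren (RFix.succ _), ← el_succ, ← off_cons] at hz
    have h0 := (Look.zero (Γ := ctx o R (A :: Γ)) (A := oV (off R (A :: Γ)))).typed b.wf
    rw [oV_ren (RFix.succ _)] at h0
    have h := Hub.Typed.app hz h0
    rw [inst_succ] at h
    exact h
  · exact Er.cApp (Er.var (i := 1) (show Theta (Γ.length + 1) R.length 0 = .C from Theta_C _ _)
      (by trivial)) (Er.var (i := 0) rfl (by trivial))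
  · exact .refl _

theorem UnitAt.weakP (H : UnitAt Ax Ru o) {Γ : List (Tm S)} {M B A : Tm S} {s : S}
    (hM : DTyped Ax Ru Γ M B) (hA : DTyped Ax Ru Γ A (.srt s)) (h : OkP Ax Ru o Γ M B) :
    OkP Ax Ru o (A :: Γ) (M.ren Nat.succ) (B.ren Nat.succ) := by
  intro R wR
  obtain ⟨E, wE, X, d, hX, ed, eX, cX⟩ := h R wR
  refine ⟨E, ?_, ?_⟩
  · exact wE
  · refine ⟨X.ren (upr Nat.succ), d.ren Nat.succ, ?_, by rw [strip_ren _ (by simp), ed], ?_, ?_⟩
    · have hr := (RenOK.succ (ctx o (E ++ R) Γ) (ctyp (off (E ++ R) Γ) (el (off (E ++ R) Γ) A))).up (oV (off (E ++ R) Γ))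
      rw [oV_ren (RFix.succ _), ← off_cons] at hr
      have := hX.ren hr (H.log_wf (DTyped.weak hM hA) wE).2.wf
      rw [ren_ren] at this
      rw [off_cons] at this
      rw [off_cons, el_succ, ren_ren]
      exact this
    · have := eX.ren (Θ' := push .L (Theta (Γ.length + 1) (E ++ R).length)) (ρ' := id)
        (f := upr Nat.succ) (g := upr Nat.succ) (by
          intro i _
          cases i with
          | zero => exact ⟨rfl, fun _ => rfl⟩
          | succ i => exact ⟨Theta_succ _ _ i, fun _ => rfl⟩)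
      rw [skel_ren] at this
      rw [skel_deren]
      exact this
    · have := conv_at₁ (m' := off (E ++ R) Γ + 1 + 1) cX (Nat.succ ∘ Nat.succ) (.var 0)
        ((RFix.succ _).comp (RFix.succ _))
      rw [off_cons, tr_src, ren_ren, upr_comp]
      exact this

theorem UnitAt.weakE (H : UnitAt Ax Ru o) {Γ : List (Tm S)} {M A : Tm S} {s t : S}
    (hM : DTyped Ax Ru Γ M (.srt t)) (hA : DTyped Ax Ru Γ A (.srt s)) (h : OkE Ax Ru o Γ M t) :
    OkE Ax Ru o (A :: Γ) (M.ren Nat.succ) t := by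
  intro R wR
  obtain ⟨E, wE, X, d, hX, ed, eX, cX⟩ := h R wR
  refine ⟨E, wE, X.ren (upr Nat.succ), d.ren Nat.succ, ?_, by rw [strip_ren _ (by simp), ed], ?_,
    ?_⟩
  · have hr := (RenOK.succ (ctx o (E ++ R) Γ)
      (ctyp (off (E ++ R) Γ) (el (off (E ++ R) Γ) A))).up (oV (off (E ++ R) Γ))
    rw [oV_ren (RFix.succ _), ← off_cons] at hr
    exact hX.ren hr (H.log_wf (DTyped.weak hM hA) wE).2.wf
  · have := eX.ren (Θ' := push .L (Theta (Γ.length + 1) (E ++ R).length)) (ρ' := id)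
      (f := upr Nat.succ) (g := upr Nat.succ) (by
        intro i _
        cases i with
        | zero => exact ⟨rfl, fun _ => rfl⟩
        | succ i => exact ⟨Theta_succ _ _ i, fun _ => rfl⟩)
    rw [skel_ren] at this
    rw [skel_deren]
    exact this
  · have := conv_at₂ (m' := off (E ++ R) Γ + 1 + 1) cX (Nat.succ ∘ Nat.succ) (.var 0)
      ((RFix.succ _).comp (RFix.succ _))
    rw [off_cons, tr_src, ren_ren, upr_comp]
    exact this

theorem UnitAt.ok_conv (H : UnitAt Ax Ru o) {Γ : List (Tm S)} {M A B : Tm S} {s : S}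
    (hB : DTyped Ax Ru Γ B (.srt s)) (hc : Relation.EqvGen Step A B) (h : OkP Ax Ru o Γ M A) :
    OkP Ax Ru o Γ M B := by
  intro R wR
  obtain ⟨E, wE, X, d, hX, ed, eX, cX⟩ := h R wR
  obtain ⟨-, -, hEB, -⟩ := H.pure hB _ wE
  obtain ⟨-, b⟩ := H.log_wf hB wE
  exact ⟨E, wE, X, d, .conv hX ((hEB s rfl).el (RenOK.succ _ _) (RFix.succ _) b)
    (Conv.ren (tr_conv hc _ _ _).2 _), ed, eX, cX⟩

theorem renOK_log (R Γ : List (Tm S)) (A : Tm S) :
    RenOK (ctx o R (A :: Γ)) (logCtx o R Γ A) (Nat.succ ∘ upr Nat.succ) := by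
  have h := (RenOK.succ (ctx o R Γ) (oV (off R Γ))).up (ctyp (off R Γ) (el (off R Γ) A))
  rw [ctyp_ren (RFix.succ _), el_ren (RFix.succ _)] at h
  exact h.comp (RenOK.succ _ _)

/-- The body of a binder, placed under its log. -/
theorem body_typed {R Γ : List (Tm S)} {A : Tm S} (H : UnitAt Ax Ru o)
    (b : Based Ax Ru o (logCtx o R Γ A) (off R Γ + 3)) {X T L : Tm S}
    (hX : Typed Ax Ru (oV (off R (A :: Γ)) :: ctx o R (A :: Γ)) X T)
    (hL : Typed Ax Ru (logCtx o R Γ A) L (oV (off R Γ + 3))) :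
    Typed Ax Ru (logCtx o R Γ A) ((X.ren (upr (Nat.succ ∘ upr Nat.succ))).sub (inst L))
      ((T.ren (upr (Nat.succ ∘ upr Nat.succ))).sub (inst L)) := by
  have hr := (renOK_log (o := o) R Γ A).up (oV (off R (A :: Γ)))
  rw [oV_ren (m' := off R Γ + 3) (by
    rw [off_cons]; exact (RFix.succ _).up.comp (RFix.succ _))] at hr
  exact (hX.ren hr (b.bo H).wf).inst hL

theorem body_er {n r : ℕ} {Θ2 : ℕ → Kd} {ρ2 : ℕ → ℕ} {X L : Tm S} {t tL : Sk} (hC : Θ2 1 = .C) (hT : ∀ i, Θ2 (i + 3) = Theta n r i)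
    (eX : Er (push .L (Theta (n + 1) r)) id .V X t) (eL : Er Θ2 ρ2 .L L tL) :
    Er Θ2 ρ2 .V ((X.ren (upr (Nat.succ ∘ upr Nat.succ))).sub (inst L))
      ((t.ren (upr fun i => ρ2 ((Nat.succ ∘ upr Nat.succ) i))).sub (inst tL)) := by
  refine (eX.ren (Θ' := push .L Θ2) (ρ' := upr ρ2) (f := upr (Nat.succ ∘ upr Nat.succ))
    (g := upr fun i => ρ2 ((Nat.succ ∘ upr Nat.succ) i)) ?_).sub
    (SubEr.instKept (by trivial) eL)
  intro i _
  refine ⟨?_, fun _ => ?_⟩
  · match i with
    | 0 => rfl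
    | 1 => exact hC.trans (Theta_C _ _).symm
    | i + 2 => exact (hT i).trans (Theta_succ _ _ _).symm
  · cases i <;> rfl

theorem UnitAt.ok_prod (H : UnitAt Ax Ru o) {Γ : List (Tm S)} {A B : Tm S} {s₁ s₂ s₃ : S}
    (hA : DTyped Ax Ru Γ A (.srt s₁)) (hB : DTyped Ax Ru (A :: Γ) B (.srt s₂)) (hr : Ru s₁ s₂ s₃)
    (ihA : OkE Ax Ru o Γ A s₁) (ihB : OkE Ax Ru o (A :: Γ) B s₂) :
    ∀ R, Wf Ax Ru (R ++ baseCtx o) → ∃ E, Wf Ax Ru ((E ++ R) ++ baseCtx o) ∧
      OutF Ax Ru o (E ++ R) Γ (.pi A B) s₃ := by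
  intro R wR
  obtain ⟨E1, w1, oB⟩ := ihB R wR
  obtain ⟨E2, w2, oA⟩ := ihA _ w1
  obtain ⟨GT, w3, Hd, dA, edA, hHd, eHd⟩ := H.logT hA w2 oA
  obtain ⟨XB, dB, hXB, edB, eXB, cXB⟩ :=
    H.liftE (E := GT :: E2) hB (by simpa using w3) oB
  refine ⟨GT :: (E2 ++ E1), by simpa [List.append_assoc] using w3, ?_⟩
  rw [show GT :: (E2 ++ E1) ++ R = GT :: (E2 ++ (E1 ++ R)) by simp]
  rw [List.cons_append] at hXB eXB cXB
  generalize E2 ++ (E1 ++ R) = R2 at *
  set R3 := GT :: R2 with hR3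
  set m := off R3 Γ with hm
  have bl : Based Ax Ru o (logCtx o R3 Γ A) (m + 3) := H.log_based w3 hA
  obtain ⟨bo, hz⟩ := H.tyA w3 hA
  have hb : Look (logCtx o R3 Γ A) 2 (oV (m + 3)) := by
    have := Look.succ (A := oV (m + 2)) (Look.succ (A := zTy m A)
      (Look.zero (Γ := ctx o R3 Γ) (A := oV m)))
    rwa [oV_ren (RFix.succ _), oV_ren (RFix.succ _), oV_ren (RFix.succ _)] at this
  have hL := H.logTermT bl hHd hb
  have hbody : Typed Ax Ru (logCtx o R3 Γ A)
      ((XB.ren (upr (Nat.succ ∘ upr Nat.succ))).sub (inst (logTerm m Hd 2))) (.srt s₂) :=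
    body_typed H bl hXB hL
  refine ⟨.pi (zTy m A) (.pi (oV (m + 2))
    ((XB.ren (upr (Nat.succ ∘ upr Nat.succ))).sub (inst (logTerm m Hd 2)))), .tPi dA dB,
    .cPi dA dB, ?_, by simp [De.strip, edA, edB], by simp [De.strip, edA, edB], fun _ _ => rfl,
    ?_, ?_⟩
  · exact .prod hz (.prod ((bo.cons hz).oT H) hbody (H.inn s₂)) hr
  · refine Er.prod ?_
    have eL := eHd (push .H (push .C (push .L (Theta Γ.length R3.length))))
      (skip (upr id)) 2 rfl rfl rfl (fun i => rfl)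
    have eB := body_er (Θ2 := push .H (push .C (push .L (Theta Γ.length R3.length))))
      (ρ2 := skip (upr id)) rfl (fun i => rfl) eXB eL
    rw [skel_ren, skel_map dB _ (upr Nat.succ) (inst _) _ fun i => by cases i <;> rfl] at eB
    simp only [upr_id, skel_ren] at eB ⊢
    exact eB
  · have hR := (RFix.succ m).up
    have hF : Fix (inst (sig m) : ℕ → Tm S) (m + 1 + 1) (m + 1) := fix_inst _ _
    simp only [zTy, Tm.ren, Tm.sub, ctyp_ren hR, oV_ren hR.up, oV_sub hF.up, tr]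
    simp only [ctyp, Tm.sub, oV_sub hF, succ_sub', (tr_ren A _ _ Nat.succ _ _ hR).2, q0V_ren hR]
    rw [(tr_map A _ _ (upr Nat.succ ∘ Nat.succ) Nat.succ _ _ hF (fun i => rfl)).2, q0V_sub hF]
    refine Conv.pi (.refl _) (Conv.pi (.refl _) ?_)
    rw [(tr_ren B _ _ (upr Nat.succ) Nat.succ _ (RFix.succ (m + 1 + 1))).2]
    have hg : RFix (Nat.succ ∘ upr Nat.succ) (off R3 (A :: Γ)) (m + 3) := by
      rw [off_cons]; exact (RFix.succ _).up.comp (RFix.succ _)
    refine .trans _ _ _ ?_ (conv_at₂ cXB _ (.var 2) hg)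
    simp only [Hub.sub_sub, sub_ren]
    refine Conv.subArg _ fun i => ?_
    cases i with
    | zero =>
      show Conv ((logTerm m Hd 2).sub
        (ups (ups (inst (sig m))) ∘ upr (upr (upr Nat.succ)))) _
      refine logTerm_conv ?_ ?_ _ _
      · intro j
        rw [show m + 3 + j = m + j + 1 + 1 + 1 by omega]
        simp [upr, ups, inst, Tm.ren]
      · show ((sig m).ren Nat.succ).ren Nat.succ = _
        rw [sig, konst_ren (RFix.succ _), konst_ren (RFix.succ _)]
        rfl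
    | succ i => cases i <;> exact .refl _

theorem UnitAt.ok_abs (H : UnitAt Ax Ru o) {Γ : List (Tm S)} {A M B : Tm S} {s s₁ : S}
    (hM : DTyped Ax Ru (A :: Γ) M B) (hP : DTyped Ax Ru Γ (.pi A B) (.srt s))
    (hA : DTyped Ax Ru Γ A (.srt s₁)) (ihM : OkP Ax Ru o (A :: Γ) M B)
    (ihA : OkE Ax Ru o Γ A s₁) : OkP Ax Ru o Γ (.lam A M) (.pi A B) := by
  intro R wR
  obtain ⟨E1, w1, oM⟩ := ihM R wR
  obtain ⟨E2, w2, oA⟩ := ihA _ w1
  obtain ⟨GT, w3, Hd, dA, edA, hHd, eHd⟩ := H.logT hA w2 oA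
  obtain ⟨XM, dM, hXM, edM, eXM, cXM⟩ :=
    H.liftP (E := GT :: E2) hM (by simpa using w3) oM
  refine ⟨GT :: (E2 ++ E1), by simpa [List.append_assoc] using w3, ?_⟩
  rw [show GT :: (E2 ++ E1) ++ R = GT :: (E2 ++ (E1 ++ R)) by simp]
  rw [List.cons_append] at hXM eXM cXM
  generalize E2 ++ (E1 ++ R) = R2 at *
  set R3 := GT :: R2 with hR3
  set m := off R3 Γ with hm
  have bl : Based Ax Ru o (logCtx o R3 Γ A) (m + 3) := H.log_based w3 hA
  obtain ⟨-, -, hE, -⟩ := H.pure hP R3 w3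
  obtain ⟨bo, hz⟩ := H.tyA w3 hA
  have hb : Look (logCtx o R3 Γ A) 0 (oV (m + 3)) := by
    have := Look.zero (Γ := zTy m A :: oV m :: ctx o R3 Γ) (A := oV (m + 2))
    rwa [oV_ren (RFix.succ _)] at this
  have hL := H.logTermT bl hHd hb
  have hT : Typed Ax Ru (oV m :: ctx o R3 Γ) (tr (m + 1) Nat.succ (q0V (m + 1)) (.pi A B)).2
      (.srt s) := hE s rfl _ _ _ _ (RenOK.succ _ _) (RFix.succ _) bo bo.q0T
  obtain ⟨_, _, _, _, q1, h1⟩ := hT.pi_inv rfl
  have hg2 : RFix (Nat.succ ∘ upr Nat.succ) (off R3 (A :: Γ)) (m + 3) := by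
    rw [off_cons]; exact (RFix.succ _).up.comp (RFix.succ _)
  have hbody := body_typed H bl hXM hL
  rw [succ_ren, inst_succ, ← ren_ren, off_cons, el_ren (RFix.succ _).up,
    ← q0V_ren (RFix.succ (off R3 Γ + 1))] at hbody
  refine ⟨.lam (zTy m A) (.lam (oV (m + 2))
    ((XM.ren (upr (Nat.succ ∘ upr Nat.succ))).sub (inst (logTerm m Hd 0)))), .lam dA dM, ?_,
    by simp [De.strip, edA, edM], ?_, ?_⟩
  · rw [el_ren (RFix.succ _)]
    exact .abs (.abs hbody h1) hT
  · refine Er.vLam ?_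
    rw [upr_id]
    refine Er.cLam ?_
    rw [upr_id]
    have eL := eHd (push .L (push .C (push .L (Theta Γ.length R3.length)))) id 0 rfl rfl rfl
      (fun i => rfl)
    have eB := body_er (Θ2 := push .L (push .C (push .L (Theta Γ.length R3.length)))) (ρ2 := id)
      rfl (fun i => rfl) eXM eL
    rw [skel_ren, skel_map dM _ (lmap Nat.succ) (inst _) _ fun i => by cases i <;> rfl] at eB
    simp only [skel_ren] at eB ⊢
    exact eB
  · have hR := (RFix.succ m).up
    have hF : Fix (inst (sig m) : ℕ → Tm S) (m + 1 + 1) (m + 1) := fix_inst _ _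
    simp only [zTy, Tm.ren, Tm.sub, ctyp_ren hR, oV_ren hR.up, oV_sub hF.up, tr]
    simp only [ctyp, Tm.sub, oV_sub hF, succ_sub', (tr_ren A _ _ Nat.succ _ _ hR).2, q0V_ren hR]
    rw [(tr_map A _ _ (upr Nat.succ ∘ Nat.succ) Nat.succ _ _ hF (fun i => rfl)).2, q0V_sub hF]
    refine Conv.lam (.refl _) (Conv.lam (.refl _) ?_)
    refine .trans _ _ _ ?_ (conv_at₁ cXM _ (.var 2) hg2)
    simp only [Hub.sub_sub, sub_ren]
    refine Conv.subArg _ fun i => ?_
    cases i with
    | zero =>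
      show Conv ((logTerm m Hd 0).sub
        (ups (ups (inst (sig m))) ∘ upr (upr (upr Nat.succ)))) _
      refine logTerm_conv ?_ ?_ _ _
      · intro j
        rw [show m + 3 + j = m + j + 1 + 1 + 1 by omega]
        simp [upr, ups, inst, Tm.ren]
      · show ((sig m).ren Nat.succ).ren Nat.succ = _
        rw [sig, konst_ren (RFix.succ _), konst_ren (RFix.succ _)]
        rfl
    | succ i => cases i <;> exact .refl _

theorem UnitAt.ok_app (H : UnitAt Ax Ru o) {Γ : List (Tm S)} {M N A B : Tm S} {s : S}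
    (hM : DTyped Ax Ru Γ M (.pi A B)) (hP : DTyped Ax Ru Γ (.pi A B) (.srt s))
    (hT : ∀ R, Wf Ax Ru (R ++ baseCtx o) → ∃ t, Typed Ax Ru (oV (off R Γ) :: ctx o R Γ)
      ((el (off R Γ) (B.sub (inst N))).ren Nat.succ) (.srt t))
    (ihM : OkP Ax Ru o Γ M (.pi A B)) (ihN : OkP Ax Ru o Γ N A) :
    OkP Ax Ru o Γ (.app M N) (B.sub (inst N)) := by
  intro R wR
  obtain ⟨E1, w1, oM⟩ := ihM R wR
  obtain ⟨E2, w2, oN⟩ := ihN _ w1
  obtain ⟨XF, dF, hXF, edF, eXF, cXF⟩ := H.liftP (E := E2) hM w2 oM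
  obtain ⟨XN, dN, hXN, edN, eXN, cXN⟩ := oN
  refine ⟨E2 ++ E1, by simpa [List.append_assoc] using w2, ?_⟩
  rw [List.append_assoc E2 E1 R]
  obtain ⟨t, ht⟩ := hT _ w2
  obtain ⟨-, -, hE, -⟩ := H.pure hP _ w2
  generalize E2 ++ (E1 ++ R) = R1 at *
  set m := off R1 Γ with hm
  obtain ⟨-, b⟩ := H.log_wf hM w2
  have hTP : Typed Ax Ru (oV m :: ctx o R1 Γ) (tr (m + 1) Nat.succ (q0V (m + 1)) (.pi A B)).2
      (.srt s) := hE s rfl _ _ _ _ (RenOK.succ _ _) (RFix.succ _) b b.q0T
  obtain ⟨_, _, _, _, q1, -⟩ := hTP.pi_inv rfl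
  have b1 := b.bo H
  have b2 := b1.cons b1.qT
  have hg : RFix (Nat.succ ∘ Nat.succ) m (m + 2) := (RFix.succ _).comp (RFix.succ _)
  set cmp : Tm S := .lam (qV (m + 2)) (.app (.var 1) (.app (.var 2) (.var 0))) with hcmp
  have h1' := (Look.succ (A := qV (m + 2)) (Look.zero (Γ := oV m :: ctx o R1 Γ)
    (A := oV (m + 1)))).typed b2.wf
  have h2' := (Look.succ (A := qV (m + 2)) (Look.succ (A := oV (m + 1))
    (Look.zero (Γ := ctx o R1 Γ) (A := oV m)))).typed b2.wf
  have h0' := (Look.zero (A := qV (m + 2)) (Γ := oV (m + 1) :: oV m :: ctx o R1 Γ)).typed b2.wf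
  simp only [oV_ren (RFix.succ _)] at h1' h2'
  rw [qV_ren (RFix.succ _)] at h0'
  have hc : Typed Ax Ru (oV (m + 1) :: oV m :: ctx o R1 Γ) cmp (oV (m + 2)) := by
    refine .abs (s := o) ?_ (b1.oT H)
    rw [qV_ren (RFix.succ _)]
    exact Based.logApp h1' (Based.logApp h2' h0')
  have hr := ((RenOK.succ (ctx o R1 Γ) (oV m)).comp (RenOK.succ _ (oV (m + 1)))).up (oV m)
  rw [oV_ren hg] at hr
  have hN' := (hXN.ren hr (b1.bo H).wf).inst hc
  rw [succ_ren, inst_succ, ← ren_ren, el_ren (RFix.succ _)] at hN'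
  set arg : Tm S := .lam (oV (m + 1)) ((XN.ren (upr (Nat.succ ∘ Nat.succ))).sub (inst cmp))
  have harg : Typed Ax Ru (oV m :: ctx o R1 Γ) arg
      (.pi (oV (m + 1)) ((tr (m + 1) Nat.succ (q0V (m + 1)) A).2.ren Nat.succ)) :=
    .abs hN' q1
  rw [el_ren (RFix.succ _)] at hXF
  have hA1 := Hub.Typed.app hXF harg
  simp only [Tm.sub, succ_sub', oV_sub (fix_inst (m + 1) arg)] at hA1
  have hl := (Look.zero (Γ := ctx o R1 Γ) (A := oV m)).typed b.wf
  rw [oV_ren (RFix.succ _)] at hl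
  have hA2 := Hub.Typed.app hA1 hl
  rw [inst_succ] at hA2
  refine ⟨.app (.app XF arg) (.var 0), .app dF dN, .conv hA2 ht ?_, by simp [De.strip, edF, edN],
    ?_, ?_⟩
  · rw [el_ren (RFix.succ _)]
    have hfol : Follow (m + 1 + 1) (m + 1) (upr Nat.succ) Nat.succ (inst arg) (inst N) := by
      refine ⟨fix_inst _ _, fun i g mm hg' c' => ?_⟩
      cases i with
      | succ i => exact .refl _
      | zero =>
        simp only [upr, inst, arg, Tm.ren]
        refine .trans _ _ _ (.rel _ _ (.beta _ _ _)) ?_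
        have hgs : RFix (g ∘ Nat.succ) m mm := (RFix.succ m).comp hg'
        refine .trans _ _ _ ?_ (conv_at₁ cXN _ c' hgs)
        simp only [Hub.sub_sub, sub_ren]
        refine Conv.subArg _ fun i => ?_
        cases i with
        | succ i => exact .refl _
        | zero =>
          show Conv (cmp.sub (inst (konst mm c') ∘ upr g)) (konst mm c')
          have hF : Fix (inst (konst mm c') ∘ upr g) (m + 2) mm := fun j => by
            rw [show m + 2 + j = m + 1 + j + 1 by omega]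
            simp [upr, inst, hg' j]
          rw [hcmp]
          simp only [Tm.sub, qV_sub hF]
          refine Conv.lam (.refl _) ?_
          show Conv (.app ((konst mm c').ren Nat.succ) _) _
          rw [konst_ren (RFix.succ _)]
          exact .rel _ _ (konst_app _ _ _)
    have key := (tr_sub B _ _ _ _ _ _ ((q0V (m + 1)).ren Nat.succ) hfol).2
    rw [inst_succ] at key
    exact key
  · refine Er.cApp (Er.vApp eXF ?_) (Er.var (i := 0) rfl (by trivial))
    refine Er.cLam ?_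
    rw [upr_id]
    have eC : Er (push .L (push .L (Theta Γ.length R1.length))) id .L cmp (eta (.var 0)) := by
      refine Er.lLam ?_
      rw [upr_id]
      exact Er.qApp (Er.var (i := 1) (ρ := id) (by simp [push, demote]) (by trivial))
        (Er.qSkip (Er.var (i := 2) (by simp [push, demote]) (by trivial))
          (Er.var (i := 0) rfl (by trivial)))
    have eB := (eXN.ren (Θ' := push .L (push .L (push .L (Theta Γ.length R1.length))))
      (ρ' := id) (f := upr (Nat.succ ∘ Nat.succ)) (g := upr (Nat.succ ∘ Nat.succ)) (by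
        intro i _
        cases i with
        | zero => exact ⟨rfl, fun _ => rfl⟩
        | succ i => exact ⟨rfl, fun _ => rfl⟩)).sub (Θ' := push .L (push .L
          (Theta Γ.length R1.length))) (ρ' := id) (σ := inst cmp) (τ := inst (eta (.var 0)))
          (by
            have := SubEr.instKept (k := .L) (by trivial) eC
            rwa [upr_id] at this)
    rw [skel_ren, skel_map dN _ (fun i => i + 1 + 1) (inst _) _ fun i => rfl] at eB
    exact eB
  · have hR := (RFix.succ m).up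
    have hF : Fix (inst (sig m) : ℕ → Tm S) (m + 1 + 1) (m + 1) := fix_inst _ _
    simp only [arg, Tm.ren, Tm.sub, oV_ren hR, oV_sub hF, tr]
    refine Conv.app (Conv.app cXF (Conv.lam (.refl _) ?_)) (.refl _)
    refine .trans _ _ _ ?_ (conv_at₁ cXN (Nat.succ ∘ Nat.succ) (.app (.var 0) (.var 1)) hg)
    simp only [Hub.sub_sub, sub_ren]
    refine Conv.subArg _ fun i => ?_
    cases i with
    | succ i => exact .refl _
    | zero =>
      show Conv (cmp.sub (ups (inst (sig m)) ∘ upr (upr Nat.succ))) _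
      have hF' : Fix (ups (inst (sig m)) ∘ upr (upr Nat.succ) : ℕ → Tm S) (m + 2) (m + 2) := by
        intro j
        rw [show m + 2 + j = m + j + 1 + 1 by omega]
        simp [upr, ups, inst, Tm.ren]
      rw [hcmp]
      simp only [Tm.sub, qV_sub hF']
      refine Conv.lam (.refl _) (Conv.app (.refl _) ?_)
      show Conv (.app (((sig m).ren Nat.succ).ren Nat.succ) _) _
      rw [sig, konst_ren (RFix.succ _), konst_ren (RFix.succ _)]
      exact .rel _ _ (konst_app _ _ _)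

/-- Every judgment is translated; products give translations of their domains. -/
theorem UnitAt.translate (H : UnitAt Ax Ru o) {Γ : List (Tm S)} {M A : Tm S}
    (h : DTyped Ax Ru Γ M A) :
    (SortTy Ax A → OkP Ax Ru o Γ M A) ∧ (∀ s, A = .srt s → OkE Ax Ru o Γ M s) ∧
      (∀ A₀ B₀, M = .pi A₀ B₀ →
        ∃ s, DTyped Ax Ru Γ A₀ (.srt s) ∧ OkE Ax Ru o Γ A₀ s) := by
  have ofP : ∀ {Γ : List (Tm S)} {M : Tm S} {s : S}, DTyped Ax Ru Γ M (.srt s) →
      OkP Ax Ru o Γ M (.srt s) → OkE Ax Ru o Γ M s := fun hM hp R wR => by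
    obtain ⟨E, wE, hE⟩ := hp R wR
    exact ⟨E, wE, H.outEl hM wE hE⟩
  induction h with
  | @ax s t h =>
    refine ⟨fun ht R wR => ?_, fun s' e => ?_, fun _ _ e => by cases e⟩
    · obtain ⟨t', ht⟩ := ht t rfl
      exact ⟨[], wR, H.codeP (.ax h) ht wR (sortE H h wR) rfl⟩
    · cases e; exact fun R wR => ⟨[], wR, (sortE H h wR).outE⟩
  | @var Γ A s hA _ =>
    refine ⟨fun _ => H.ok_var hA, fun s' e => ?_, fun _ _ e => by cases e⟩
    refine ofP (e ▸ DTyped.var hA) (e ▸ H.ok_var hA)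
  | @weak Γ M B C s hM hC ih _ =>
    refine ⟨fun hB => H.weakP hM hC (ih.1 fun t e => hB t (by rw [e]; rfl)), fun s' e => ?_,
      fun A₀ B₀ e => ?_⟩
    · cases B with
      | srt t => cases e; exact H.weakE hM hC (ih.2.1 _ rfl)
      | _ => cases e
    · cases M with
      | pi a b =>
        cases e
        obtain ⟨s', h', o'⟩ := ih.2.2 a b rfl
        exact ⟨s', DTyped.weak h' hC, H.weakE h' hC o'⟩
      | _ => cases e
  | @prod Γ A B s₁ s₂ s₃ hA hB hr ihA ihB =>
    have key := H.ok_prod hA hB hr (ihA.2.1 _ rfl) (ihB.2.1 _ rfl)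
    refine ⟨fun h3 R wR => ?_, fun s e => ?_,
      fun _ _ e => by cases e; exact ⟨_, hA, ihA.2.1 _ rfl⟩⟩
    · obtain ⟨t, ht⟩ := h3 s₃ rfl
      obtain ⟨E, wE, hF⟩ := key R wR
      exact ⟨E, wE, H.codeP (.prod hA hB hr) ht wE hF rfl⟩
    · cases e
      exact fun R wR => by
        obtain ⟨E, wE, hF⟩ := key R wR
        exact ⟨E, wE, hF.outE⟩
  | @abs Γ A M B s hM hP ihM ihP =>
    obtain ⟨s₁, hA, oA⟩ := ihP.2.2 A B rfl
    exact ⟨fun _ => H.ok_abs hM hP hA (ihM.1 (SortTy.of_allTy hP.allTy.2)) oA,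
      fun _ e => (by cases e), fun _ _ e => (by cases e)⟩
  | @app Γ M N A B s t hM hN hP hB ihM ihN _ _ =>
    have key : OkP Ax Ru o Γ (.app M N) (B.sub (inst N)) := H.ok_app hM hP
      (fun R wR => ⟨t, ((H.pure hB R wR).2.2.1 t rfl).el (RenOK.succ _ _) (RFix.succ _)
        (H.log_wf hM wR).2⟩)
      (ihM.1 fun _ e => by cases e) (ihN.1 (SortTy.of_allTy hP.allTy.1))
    exact ⟨fun _ => key, fun s' e => ofP (e ▸ DTyped.app hM hN hP hB) (e ▸ key),
      fun _ _ e => (by cases e)⟩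
  | @appSort Γ M N A B s t hM hN hP eT ihM ihN _ =>
    obtain ⟨t', ht⟩ := SortTy.of_allTy (allTy_sub B hP.allTy.2 fun i => by
      cases i <;> first | exact hN.allTy | trivial) t eT
    have key : OkP Ax Ru o Γ (.app M N) (B.sub (inst N)) := H.ok_app hM hP
      (fun R wR => ⟨t', by
        rw [eT, el_srt_ren (RFix.succ _)]
        exact (H.log_wf hM wR).2.sortT H ht (H.log_wf hM wR).2.q0T⟩)
      (ihM.1 fun _ e => by cases e) (ihN.1 (SortTy.of_allTy hP.allTy.1))
    exact ⟨fun _ => key, fun s' e => ofP (e ▸ DTyped.appSort hM hN hP eT) (e ▸ key),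
      fun _ _ e => (by cases e)⟩
  | @conv Γ M A B s hM hB hc ih _ =>
    have key := H.ok_conv hB hc (ih.1 (SortTy.of_conv hB.allTy hc))
    exact ⟨fun _ => key, fun s' e => ofP (e ▸ DTyped.conv hM hB hc) (e ▸ key), ih.2.2⟩

/-- With a unit sort for rules, weak normalisation implies strong normalisation. -/
theorem UnitAt.strong (H : UnitAt Ax Ru o)
    (wn : ∀ M : Tm S, Legal Ax Ru M → HasNormalForm M) {M : Tm S} (h : Legal Ax Ru M) :
    ¬ Diverges M := by
  apply not_diverges_of_acc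
  have lam_ok : ∀ {Γ : List (Tm S)} {m : ℕ}, Based Ax Ru o Γ m →
      Typed Ax Ru Γ (.lam (qV m) (.var 0)) (oV m) := fun b =>
    .abs (Look.typed .zero (b.cons b.qT).wf) (b.oT H)
  have subj : ∀ {Γ : List (Tm S)} {M A : Tm S}, DTyped Ax Ru Γ M A →
      Acc (fun x y => Step y x) M := by
    intro Γ M A h
    obtain ⟨hp, he, -⟩ := H.translate h
    have go : ∀ {R : List (Tm S)} {k : Cat} {X T : Tm S} {d : De S k}, k ≠ .rec_ →
        Wf Ax Ru (R ++ baseCtx o) → Typed Ax Ru (oV (off R Γ) :: ctx o R Γ) X T →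
        Er (push .L (Theta Γ.length R.length)) id .V X (skel Nat.succ d (.var 0)) →
        d.strip = M → Acc (fun x y => Step y x) M := by
      intro R k X T d hk wR hX eX ed
      have hl := lam_ok (H.log_wf h wR).1
      have hX' := hX.inst hl
      have eL : Er (Theta Γ.length R.length) id .L (.lam (qV (off R Γ)) (.var 0) : Tm S)
          (.lam star (.var 0)) := .lLam (Er.var (i := 0) rfl (by trivial))
      have r := SubEr.instKept (by trivial) eL
      rw [upr_id] at r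
      have eX' := eX.sub r
      rw [skel_map d Nat.succ id (inst _) _ fun i => rfl] at eX'
      exact ed ▸ acc_of_skel hk d id (.lam (.var 0) (by simp [occ])) ⟨_, rfl⟩
        (eX'.normal (wn _ ⟨_, _, .inl hX'⟩))
    by_cases hA : SortTy Ax A
    · obtain ⟨E, wE, X, d, hX, ed, eX, -⟩ := hp hA [] H.base.wf
      exact go (by simp) wE hX eX ed
    · obtain ⟨s, e⟩ : ∃ s, A = .srt s := by
        by_contra c
        exact hA fun s e => absurd ⟨s, e⟩ c
      obtain ⟨E, wE, X, d, hX, ed, eX, -⟩ := he s e [] H.base.wf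
      exact go (by simp) wE hX eX ed
  obtain ⟨Γ, A, h | h⟩ := h
  · exact subj (.of_typed h)
  · rcases (DTyped.of_typed h).correct with ⟨s, rfl⟩ | ⟨s, hs⟩
    · exact ⟨_, fun y hy => by cases hy⟩
    · exact subj hs

end Vale.Agent.P340.Unit
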